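import Crest.Agent.X212.Sym24.NF
import Crest.Agent.X212.Cyl58.OE
import Crest.Agent.X212.Bb31.Push

-- ▼ part X212/Sym24/Star
section

/-!
# X212 / Sym24, part 5 (helper24): normal form near an end, and the join of two ends

`psh` (push-forward by an open embedding), `nf_star`, `same_nq`, `exists_prim`, `exists_nrm`,
`Jg`, `Jg.patch`, `Jg.join`.
-/

set_option autoImplicit false
set_option linter.unusedSectionVars false

open Set Filter Topology Function Module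
open scoped ContDiff Manifold
open Crest.Agent.R208 Crest.Agent.R208.F Crest.Agent.R208.FI
open Crest.Agent.X212.Dr59 Crest.Agent.X212.Int54 Crest.Agent.X212.Orx52 Crest.Agent.X212.Cyl58

noncomputable section

namespace Crest.Agent.X212.Sym24

variable {E : Type*} [NormedAddCommGroup E] [NormedSpace ℝ E] [FiniteDimensional ℝ E]
  {H : Type*} [TopologicalSpace H] {I : ModelWithCorners ℝ E H} [I.Boundaryless]
  {M : Type*} [TopologicalSpace M] [ChartedSpace H M] [IsManifold I ∞ M]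
  {E' : Type*} [NormedAddCommGroup E'] [NormedSpace ℝ E'] [FiniteDimensional ℝ E']
  {H' : Type*} [TopologicalSpace H'] {J : ModelWithCorners ℝ E' H'} [J.Boundaryless]
  {N : Type*} [TopologicalSpace N] [ChartedSpace H' N] [IsManifold J ∞ N]

/-! ### push-forward -/

section psh

/-- push-forward by an open embedding, extended by zero -/
def psh (J : ModelWithCorners ℝ E' H') (I : ModelWithCorners ℝ E H) (j : N → M) (a : N → Ext E') :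
    M → Ext E :=
  extend j (fun p => pb ((mf J I j p).inverse : E →ₗ[ℝ] E') (a p)) 0

variable {j f : N → M} {a : N → Ext E'} {b c : M → Ext E} {y : N}

theorem isInvertible_mf (hf : IsLocalDiffeomorphAt J I ∞ f y) : (mf J I f y).IsInvertible :=
  ⟨hf.mfderivToContinuousLinearEquiv (by simp), rfl⟩

theorem eq_of_pm (hf : IsLocalDiffeomorphAt J I ∞ f y) (h : pm J I f b y = pm J I f c y) :
    b (f y) = c (f y) := by
  have e : ∀ x : Ext E, pb ((mf J I f y).inverse : E →ₗ[ℝ] E') (pb (mf J I f y : E' →ₗ[ℝ] E) x)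
      = x := fun x => by
    rw [pb_comp]
    exact (congrArg (fun A : E →L[ℝ] E => pb (A : E →ₗ[ℝ] E) x)
      (isInvertible_mf hf).self_comp_inverse).trans (pb_id x)
  rw [← e (b (f y)), ← pm_apply, h, pm_apply, e]

theorem smAt_of_ld (hf : IsLocalDiffeomorphAt J I ∞ f y) (h : SmAt J (pm J I f b) y) :
    SmAt I b (f y) := by
  have e : hf.localInverse (f y) = y := hf.localInverse_left_inv hf.localInverse_mem_target
  have h1 : SmAt I (pm I J hf.localInverse (pm J I f b)) (f y) :=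
    SmAt.pm hf.localInverse_contMDiffAt (by rwa [e])
  refine h1.congr ?_
  have c := hf.localInverse_contMDiffAt.continuousAt
  filter_upwards [eventually_ld hf.localInverse_isLocalDiffeomorphAt,
    c.eventually (e.symm ▸ eventually_ld hf),
    hf.localInverse_eventuallyEq_right.eventuallyEq_nhds] with x h2 h3 h4
  rw [pm_comp (h3.mdifferentiableAt ne0) (h2.mdifferentiableAt ne0), pm_of_eventually_id h4]

theorem psh_apply (hj : IsOE J I j) (a : N → Ext E') (p : N) :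
    psh J I j a (j p) = pb ((mf J I j p).inverse : E →ₗ[ℝ] E') (a p) := hj.inj.extend_apply _ _ p

theorem pm_psh (hj : IsOE J I j) (a : N → Ext E') : pm J I j (psh J I j a) = a := by
  funext p
  rw [pm_apply, psh_apply hj, pb_comp]
  exact (congrArg (fun A : E' →L[ℝ] E' => pb (A : E' →ₗ[ℝ] E') (a p))
    (isInvertible_mf (hj.loc p)).inverse_comp_self).trans (pb_id _)

theorem psh_of_notMem {x : M} (h : x ∉ range j) : psh J I j a x = 0 := extend_apply' _ _ _ h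

theorem psh_zero (hj : IsOE J I j) {C : Set N} (h0 : ∀ p ∉ C, a p = 0) {x : M} (h : x ∉ j '' C) :
    psh J I j a x = 0 := by
  by_cases hx : x ∈ range j
  · obtain ⟨p, rfl⟩ := hx
    rw [psh_apply hj, h0 p fun hp => h ⟨p, hp, rfl⟩, map_zero]
  · exact psh_of_notMem hx

theorem dg_psh (hj : IsOE J I j) {k : ℕ} (h : Dg k univ a) : Dg k univ (psh J I j a) := by
  intro x _
  by_cases hx : x ∈ range j
  · obtain ⟨p, rfl⟩ := hx
    rw [psh_apply hj]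
    exact (h p trivial).pb _
  · rw [psh_of_notMem hx]
    exact IsDeg.zero

theorem smAt_psh (hj : IsOE J I j) (h : SmAt J a y) : SmAt I (psh J I j a) (j y) :=
  smAt_of_ld (hj.loc y) (by rwa [pm_psh hj])

theorem psh_ev (hj : IsOE J I j) {C : Set N} (hC : IsClosed (j '' C)) (h0 : ∀ p ∉ C, a p = 0)
    {x : M} (h : x ∉ j '' C) : psh J I j a =ᶠ[𝓝 x] 0 :=
  eventually_of_mem (hC.isOpen_compl.mem_nhds h) fun _ hx => psh_zero hj h0 hx

theorem sm_psh (hj : IsOE J I j) {C : Set N} (hC : IsClosed (j '' C)) (h0 : ∀ p ∉ C, a p = 0)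
    (h : Sm J univ a) : Sm I univ (psh J I j a) := by
  intro x _
  by_cases hx : x ∈ j '' C
  · obtain ⟨p, -, rfl⟩ := hx
    exact smAt_psh hj (h p trivial)
  · exact cAt_zero.congr (psh_ev hj hC h0 hx)

theorem pos_ld (hf : IsLocalDiffeomorphAt J I ∞ f y) :
    0 < tp E' (pm J I f b y) * tp E' (pm J I f c y) ↔ 0 < tp E (b (f y)) * tp E (c (f y)) := by
  rw [tp_ld hf, tp_ld hf, mul_mul_mul_comm]
  exact mul_pos_iff_of_pos_left (mul_self_pos.2 (jac_ld hf))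

end psh

/-! ### normal form near an end -/

section star

variable {ι : Type*} {j : M × ℝ → N} {o : M → Ext E} {O : N → Ext E'} {Z la : ι → N → Ext E'}
  {B α : ι → M → Ext E} {ε : ℝ}

theorem pm_om (hj : IsOE (IR I) J j) {z l : N → Ext E'} {b : M → Ext E} {p : M × ℝ}
    (hz : pm (IR I) J j z p = pu b p) (hl : SmAt J l (j p)) :
    pm (IR I) J j (z - dM J l) p = (pu b - dM (IR I) (pm (IR I) J j l)) p := by
  rw [pm_sub, Pi.sub_apply, Pi.sub_apply, hz, dM_pm ne0 (hj.contMDiff p) hl]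

theorem pos_iff (hj : IsOE (IR I) J j) (hO : SameOn (pm (IR I) J j O) (OO o) univ)
    {c : N → Ext E'} {p : M × ℝ} :
    0 < tp E' (O (j p)) * tp E' (c (j p)) ↔ 0 < rat (OO o) (pm (IR I) J j c) p := by
  rw [← pos_ld (hj.loc p), pos_rat]
  exact ⟨fun h => pos_trans (mul_comm (tp _ (OO o p)) _ ▸ hO p trivial) h,
    fun h => pos_trans (hO p trivial) h⟩

theorem zero_mem (hj : IsOE (IR I) J j) {T : ℝ} {p : M × ℝ} (h : p.2 ≤ T) :
    j p ∈ (j '' (univ ×ˢ Ioi T))ᶜ := by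
  rintro ⟨q, hq, e⟩
  rw [← hj.inj e] at h
  exact h.not_gt hq.2

theorem notMem_Ici (hj : IsOE (IR I) J j) {T : ℝ} {p : M × ℝ} (h : p.2 < T) :
    j p ∉ j '' (univ ×ˢ Ici T) := by
  rintro ⟨q, hq, e⟩
  rw [← hj.inj e] at h
  exact h.not_ge hq.2

theorem cyl_pos (hj : IsOE (IR I) J j) (hO : SameOn (pm (IR I) J j O) (OO o) univ)
    (hZ : ∀ q y, pm (IR I) J j (Z q) (y, 0) = pu (B q) (y, 0)) (hl : ∀ q, Sm J univ (la q))
    (hp : ∀ q r, SameOn O ((Z q - dM J (la q)) * (Z r - dM J (la r))) (j '' (univ ×ˢ Ioi 0))ᶜ)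
    (q r : ι) (y : M) : 0 < rat (OO o) ((pu (B q) - dM (IR I) (pm (IR I) J j (la q))) *
      (pu (B r) - dM (IR I) (pm (IR I) J j (la r)))) (y, 0) := by
  have h := (pos_iff hj hO).1 (hp q r _ (zero_mem hj (p := (y, 0)) le_rfl))
  rwa [rat, pm_mul, Pi.mul_apply, pm_om hj (hZ q y) (hl q _ trivial),
    pm_om hj (hZ r y) (hl r _ trivial)] at h

variable (I J) in
/-- the normal component of `B - d la` along the slice -/
def nn (j : M × ℝ → N) (b : M → Ext E) (l : N → Ext E') : M → Ext E :=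
  nq (pu b - dM (IR I) (pm (IR I) J j l))

theorem sm_nn (hj : IsOE (IR I) J j) {b : M → Ext E} {l : N → Ext E'} (hb : Sm I univ b)
    (hl : Sm J univ l) : Sm I univ (nn I J j b l) := fun _ _ =>
  smAt_nq ((smAt_pu (hb _ trivial)).sub (SmAt.pm (hj.contMDiff _) (hl _ trivial)).dM)

theorem dg_nn {b : M → Ext E} {l : N → Ext E'} (hb : Dg 2 univ b) (hl : Dg 1 univ l) :
    Dg 1 univ (nn I J j b l) := fun _ _ => isDeg_nq
  (Dg.sub (U := univ) (fun _ _ => isDeg_up (hb _ trivial))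
    ((hl.pm (mapsTo_univ _ _)).dM isOpen_univ) _ trivial)

/-- the normal components form an admissible family `α` for `nf_star` -/
theorem same_nn (hj : IsOE (IR I) J j) (hO : SameOn (pm (IR I) J j O) (OO o) univ)
    (hB' : ∀ q, Dg 2 univ (B q)) (hZ : ∀ q y, pm (IR I) J j (Z q) (y, 0) = pu (B q) (y, 0))
    (hl : ∀ q, Sm J univ (la q)) (hl' : ∀ q, Dg 1 univ (la q))
    (h0 : ∀ q, sl 0 (pm (IR I) J j (la q)) = 0)
    (hp : ∀ q r, SameOn O ((Z q - dM J (la q)) * (Z r - dM J (la r))) (j '' (univ ×ˢ Ioi 0))ᶜ)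
    (q r : ι) : SameOn o (nn I J j (B q) (la q) * B r + nn I J j (B r) (la r) * B q) univ := by
  intro y _
  have h := cyl_pos hj hO hZ hl hp q r y
  have e : ∀ q, sl 0 (pu (B q) - dM (IR I) (pm (IR I) J j (la q))) = B q := fun q => funext fun x => by
    rw [sl, Pi.sub_apply, map_sub, dn_dM_zero (SmAt.pm (hj.contMDiff _) (hl q _ trivial)) (h0 q),
      sub_zero, pu, dn_up]
  have d : Dg 2 univ (pu (B q) - dM (IR I) (pm (IR I) J j (la q))) :=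
    Dg.sub (fun _ _ => isDeg_up (hB' q _ trivial)) (((hl' q).pm (mapsTo_univ _ _)).dM isOpen_univ)
  rw [rat_nq o (d _ trivial), e, e] at h
  exact pos_rat.1 h

/-- **normal form near an end** -/
theorem nf_star [CompactSpace M] [Finite ι] (hj : IsOE (IR I) J j)
    (hc : ∀ T, IsClosed (j '' (univ ×ˢ Ici T))) (ho : Ori I o)
    (hO : SameOn (pm (IR I) J j O) (OO o) univ) (hε : 0 < ε)
    (hB : ∀ q, Sm I univ (B q)) (hB' : ∀ q, Dg 2 univ (B q))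
    (hα : ∀ q, Sm I univ (α q)) (hα' : ∀ q, Dg 1 univ (α q))
    (hZ : ∀ q p, -ε < p.2 → pm (IR I) J j (Z q) p = pu (B q) p)
    (hl : ∀ q, Sm J univ (la q)) (hl' : ∀ q, Dg 1 univ (la q))
    (h0 : ∀ q, sl 0 (pm (IR I) J j (la q)) = 0)
    (hp : ∀ q r, SameOn O ((Z q - dM J (la q)) * (Z r - dM J (la r))) (j '' (univ ×ˢ Ioi 0))ᶜ)
    (ha : ∀ q r, SameOn o (α q * B r + α r * B q) univ) (T T' : ℝ) :
    ∃ ε' δ₁ : ℝ, 0 < ε' ∧ ε' < ε ∧ 0 < δ₁ ∧ ∀ δ ∈ Ioc 0 δ₁, ∃ la' : ι → N → Ext E',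
      (∀ q, Sm J univ (la' q)) ∧ (∀ q, Dg 1 univ (la' q)) ∧
      (∀ q, ∀ x ∉ j '' (univ ×ˢ Ioi (-ε)), la' q x = la q x) ∧
      (∀ q p, -ε' ≤ p.2 → pm (IR I) J j (la' q) p = -((δ * (p.2 - T)) • pu (α q) p)) ∧
      ∀ q r, SameOn O ((Z q - dM J (la' q)) * (Z r - dM J (la' r))) (j '' (univ ×ˢ Ioi T'))ᶜ := by
  obtain ⟨s, ε', δ₁, h1, h2, h3, h4, h5⟩ := nf_cyl (la := fun q => pm (IR I) J j (la q)) ho hB hB'
    hα hα' (fun q p _ => SmAt.pm (hj.contMDiff p) (hl q _ trivial))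
    (fun q => (hl' q).pm (mapsTo_univ _ _)) h0
    (cyl_pos hj hO (fun q y => hZ q _ (neg_neg_of_pos hε)) hl hp)
    (fun q r y => pos_rat.2 (ha q r y trivial)) hε T T'
  refine ⟨ε', δ₁, h1, h2.trans h3, h4, fun δ hδ => ?_⟩
  obtain ⟨μ, m1, m2, m3, m4, m5⟩ := h5 δ hδ
  have z : ∀ q, ∀ p ∉ (univ ×ˢ Ici (-s) : Set (M × ℝ)), μ q p = 0 := fun q p hp =>
    m3 q p (le_of_not_ge fun h => hp ⟨trivial, h⟩)
  have sl : ∀ q, Sm J univ (la q - psh (IR I) J j (μ q)) := fun q =>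
    (hl q).sub (sm_psh hj (hc _) (z q) (m1 q))
  have e : ∀ q, pm (IR I) J j (la q - psh (IR I) J j (μ q)) = pm (IR I) J j (la q) - μ q :=
    fun q => by rw [pm_sub, pm_psh hj]
  refine ⟨fun q => la q - psh (IR I) J j (μ q), sl, fun q => (hl' q).sub (dg_psh hj (m2 q)),
    fun q x hx => ?_, fun q p h => by rw [e, m4 q p h], fun q r x hx => ?_⟩
  · exact sub_eq_self.2 (psh_zero hj (z q) fun h => hx (image_mono
      (prod_mono_right (Ici_subset_Ioi.2 (neg_lt_neg h3))) h))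
  by_cases h : x ∈ j '' (univ ×ˢ Ici (-s))
  · obtain ⟨p, hp', rfl⟩ := h
    have a1 : -ε < p.2 := (neg_lt_neg h3).trans_le hp'.2
    rw [pos_iff hj hO, rat, pm_mul, Pi.mul_apply, pm_om hj (hZ q p a1) (sl q _ trivial),
      pm_om hj (hZ r p a1) (sl r _ trivial), e, e]
    exact m5 q r p ⟨hp'.2, le_of_not_gt fun h => hx ⟨p, ⟨trivial, h⟩, rfl⟩⟩
  · have e2 : ∀ q, dM J (la q - psh (IR I) J j (μ q)) x = dM J (la q) x := fun q => dM_congr (by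
      filter_upwards [psh_ev hj (hc _) (z q) h] with w hw
      rw [Pi.sub_apply, hw, Pi.zero_apply, sub_zero])
    have := hp q r x fun h' => h (image_mono
      (prod_mono_right (Ioi_subset_Ici (neg_nonpos.2 (h1.trans h2).le))) h')
    simpa only [Pi.mul_apply, Pi.sub_apply, e2] using this

/-- a closed form on the cylinder is cohomologous to the pull-back of its slice -/
theorem exists_prim {k : ℕ} {w : M × ℝ → Ext (E × ℝ)} (hw : Cl (IR I) (k + 1) univ w) :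
    ∃ γ, Sm (IR I) univ γ ∧ Dg k univ γ ∧ ∀ p, dM (IR I) γ p = w p - pu (sl 0 w) p := by
  let Hm : (M × ℝ) × ℝ → M × ℝ := fun z => (z.1.1, z.2 * z.1.2)
  have hH : ContMDiff (IR (IR I)) (IR I) ∞ Hm :=
    contMDiff_fst.fst.prodMk (contMDiff_snd.mul contMDiff_fst.snd)
  have c := hw.pm (Mp.of_contMDiff hH (mapsTo_univ _ univ))
  have s : Sm (IR (IR I)) (univ ×ˢ Icc 0 1) (pm (IR (IR I)) (IR I) Hm w) :=
    c.sm.mono (subset_univ _)
  have e : ∀ t p, sl t (pm (IR (IR I)) (IR I) Hm w) p =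
      pm (IR I) (IR I) (fun z => (z.1, t * z.2)) w p := fun t p => by
    rw [← pm_inl (I := IR I)]
    exact pm_comp (hH.mdifferentiableAt ne0)
      ((contMDiffAt_id.prodMk contMDiffAt_const).mdifferentiableAt ne0)
  refine ⟨hp (pm (IR (IR I)) (IR I) Hm w), sm_hp isOpen_univ s, fun p _ =>
    isDeg_hp (fun t ht => s _ ⟨trivial, ht⟩) fun t _ => c.dg _ trivial, fun p => ?_⟩
  have h := d_hp isOpen_univ s (mem_univ p)
  have h2 : hp (dM (IR (IR I)) (pm (IR (IR I)) (IR I) Hm w)) p = 0 := by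
    simp [hp, c.cl _ (mem_univ _)]
  rw [h2, add_zero, e, e, pm_of_eventually_id (Eventually.of_forall fun z => by simp)] at h
  rw [h, ← pm_fst (I := I), ← pm_inl (I := I), pm_comp (g := fun x => (x, (0 : ℝ)))
    ((contMDiffAt_id.prodMk contMDiffAt_const).mdifferentiableAt ne0) mdifferentiableAt_fst]
  simp only [zero_mul]
  rfl

/-- a closed form can be made independent of `t` on a neck -/
theorem exists_nrm [CompactSpace M] [T2Space N] (hj : IsOE (IR I) J j) {k : ℕ} {z : N → Ext E'}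
    (hz : Cl J (k + 1) univ z) {b : M → Ext E} (hb : Dg (k + 1) univ b)
    (he : Ex I univ (sl 0 (pm (IR I) J j z) - b)) (T : ℝ) : ∃ l, Sm J univ l ∧ Dg k univ l ∧
      (∀ x ∉ j '' (univ ×ˢ Icc (-(T + 1)) (T + 1)), l x = 0) ∧
      ∀ p, |p.2| < T → pm (IR I) J j (z - dM J l) p = pu b p := by
  obtain ⟨γ₀, g1, g2, g3⟩ := exists_prim (hz.pm (Mp.of_contMDiff hj.contMDiff (mapsTo_univ _ univ)))
  obtain ⟨σ, s1, s2, s3⟩ := he.deg (Dg.sub (fun _ _ => isDeg_dn ((hz.dg _ trivial).pb _)) hb)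
  have g4 : Sm (IR I) univ (γ₀ + pu σ) := g1.add fun _ _ => smAt_pu (s1 _ trivial)
  have g5 : Dg k univ (γ₀ + pu σ) := g2.add fun _ _ => isDeg_up (s2 _ trivial)
  let χ : ℝ → ℝ := fun t => Real.smoothTransition (T + 1 - t) * Real.smoothTransition (T + 1 + t)
  have cχ : ContDiff ℝ ∞ χ := by fun_prop
  have z0 : ∀ p ∉ (univ ×ˢ Icc (-(T + 1)) (T + 1) : Set (M × ℝ)), (ft M χ • (γ₀ + pu σ)) p = 0 :=
    fun p hp => by
      have : χ p.2 = 0 := by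
        by_cases h : p.2 ≤ T + 1
        · exact mul_eq_zero_of_right _ (Real.smoothTransition.zero_of_nonpos (by
            linarith [lt_of_not_ge fun h' => hp ⟨trivial, h', h⟩]))
        · exact mul_eq_zero_of_left (Real.smoothTransition.zero_of_nonpos (by linarith)) _
      simp [ft, this]
  have s := sm_psh hj ((isCompact_univ.prod isCompact_Icc).image hj.continuous).isClosed z0
    fun p _ => smAt_ft cχ (g4 p trivial)
  refine ⟨_, s, dg_psh hj (g5.fsmul _), fun x hx => psh_zero hj z0 hx, fun p hp => ?_⟩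
  have e : ft M χ • (γ₀ + pu σ) =ᶠ[𝓝 p] γ₀ + pu σ := by
    filter_upwards [(continuous_snd.abs.tendsto p).eventually (Iio_mem_nhds hp)] with x hx
    have := abs_lt.1 (show |x.2| < T from hx)
    simp [ft, χ, Real.smoothTransition.one_of_one_le (show 1 ≤ T + 1 - x.2 by linarith),
      Real.smoothTransition.one_of_one_le (show 1 ≤ T + 1 + x.2 by linarith)]
  rw [pm_sub, Pi.sub_apply, ← dM_pm ne0 (hj.contMDiff p) (s _ trivial), pm_psh hj, dM_congr e,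
    dM_add ne0 (g1 p trivial) (smAt_pu (s1 _ trivial)), dM_pu (s1 _ trivial), g3]
  simp only [pu, s3 _ (mem_univ _), Pi.sub_apply, map_sub]
  abel

end star

/-! ### the join of two ends -/

/-- the reflection of the cylinder -/
def fl (p : M × ℝ) : M × ℝ := (p.1, -p.2)

theorem contMDiff_fl : ContMDiff (IR I) (IR I) ∞ (fl : M × ℝ → M × ℝ) :=
  contMDiff_fst.prodMk contMDiff_snd.neg

theorem fl_fl (p : M × ℝ) : fl (fl p) = p := Prod.ext rfl (neg_neg _)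

theorem isOE_fl : IsOE (IR I) (IR I) (fl : M × ℝ → M × ℝ) :=
  IsOE.of_diffeo ⟨⟨fl, fl, fl_fl, fl_fl⟩, contMDiff_fl, contMDiff_fl⟩

theorem pm_fl_pu (a : M → Ext E) : pm (IR I) (IR I) fl (pu a) = pu a := by
  funext p
  rw [← pm_fst (I := I), pm_comp mdifferentiableAt_fst (contMDiff_fl.mdifferentiableAt ne0)]
  rfl

theorem pm_fl_dt : pm (IR I) (IR I) fl (dt E M) = -dt E M := by
  funext p
  rw [← df_snd (I := I), pm_df (contMDiff_fl.mdifferentiableAt ne0) mdifferentiableAt_snd]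
  refine (df_comp_snd (I := I) (hasDerivAt_neg' p.2)).trans ?_
  rw [df_snd]
  exact neg_one_smul ℝ _

theorem pm_fl_OO (o : M → Ext E) : pm (IR I) (IR I) fl (OO o) = OO (-o) := by
  rw [OO, pm_mul, pm_fl_pu, pm_fl_dt, OO_neg, neg_mul, OO]

theorem sign_alg {a A u f b B w T : ℝ} (k1 : 0 < a * u * T) (k2 : 0 < f * (b * w) * T)
    (k4 : a * (A * 1) = f * (b * (B * 1))) (h : a * A ≠ 0) : 0 < A * u * (B * w) := by
  have h1 := mul_pos (mul_self_pos.2 h) (pos_trans k1 (mul_comm T _ ▸ k2))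
  refine pos_of_mul_pos_left (b := (a * f * b) ^ 2) (h1.trans_eq ?_) (sq_nonneg _)
  linear_combination a ^ 2 * A * u * f * b * w * k4

section join

variable {X₁ : Type*} [TopologicalSpace X₁] [ChartedSpace H' X₁] [IsManifold J ∞ X₁]
  {X₂ : Type*} [TopologicalSpace X₂] [ChartedSpace H' X₂] [IsManifold J ∞ X₂]

variable (I J) in
/-- `N` is the union of `X₁` and `X₂`, glued along the ends by the reflection -/
structure Jg (j₁ : M × ℝ → X₁) (j₂ : M × ℝ → X₂) (i₁ : X₁ → N) (i₂ : X₂ → N) : Prop where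
  e₁ : IsOE (IR I) J j₁
  e₂ : IsOE (IR I) J j₂
  c₁ : ∀ T, IsClosed (j₁ '' (univ ×ˢ Ici T))
  c₂ : ∀ T, IsClosed (j₂ '' (univ ×ˢ Ici T))
  o₁ : IsOE J J i₁
  o₂ : IsOE J J i₂
  cov : ∀ x, x ∈ range i₁ ∨ x ∈ range i₂
  eq : ∀ p q, i₁ p = i₂ q ↔ ∃ y t, p = j₁ (y, t) ∧ q = j₂ (y, -t)

namespace Jg

variable {j₁ : M × ℝ → X₁} {j₂ : M × ℝ → X₂} {i₁ : X₁ → N} {i₂ : X₂ → N}
  (G : Jg I J j₁ j₂ i₁ i₂)
include G

theorem symm : Jg I J j₂ j₁ i₂ i₁ :=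
  ⟨G.e₂, G.e₁, G.c₂, G.c₁, G.o₂, G.o₁, fun x => (G.cov x).symm, fun p q => by
    rw [eq_comm, G.eq]
    exact ⟨fun ⟨y, t, a, b⟩ => ⟨y, -t, b, by rwa [neg_neg]⟩,
      fun ⟨y, t, a, b⟩ => ⟨y, -t, b, by rwa [neg_neg]⟩⟩⟩

theorem neck (p : M × ℝ) : i₁ (j₁ p) = i₂ (j₂ (fl p)) := (G.eq _ _).2 ⟨p.1, p.2, rfl, rfl⟩

theorem pm_neck (a : N → Ext E') : pm (IR I) J j₁ (pm J J i₁ a) =
    pm (IR I) (IR I) fl (pm (IR I) J j₂ (pm J J i₂ a)) := by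
  rw [pm_ld_comp G.o₁.loc G.e₁.loc, pm_ld_comp G.o₂.loc G.e₂.loc,
    pm_ld_comp (G.o₂.comp G.e₂).loc isOE_fl.loc]
  exact congrArg (pm (IR I) J · a) (funext G.neck)

theorem cov_left {x : N} (h : x ∈ range i₁) : (∃ p ∉ j₁ '' (univ ×ˢ Ioi 0), i₁ p = x) ∨
    ∃ q ∉ j₂ '' (univ ×ˢ Ioi 0), i₂ q = x := by
  obtain ⟨p, rfl⟩ := h
  by_cases hp : p ∈ j₁ '' (univ ×ˢ Ioi 0)
  · obtain ⟨z, hz, rfl⟩ := hp
    exact .inr ⟨_, zero_mem G.e₂ (p := fl z) (neg_nonpos.2 (le_of_lt hz.2)), (G.neck z).symm⟩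
  · exact .inl ⟨p, hp, rfl⟩

/-- the two caps cover -/
theorem cov0 (x : N) : (∃ p ∉ j₁ '' (univ ×ˢ Ioi 0), i₁ p = x) ∨
    ∃ q ∉ j₂ '' (univ ×ˢ Ioi 0), i₂ q = x :=
  (G.cov x).elim G.cov_left fun h => (G.symm.cov_left h).symm

theorem same_right {O : N → Ext E'} {o : M → Ext E}
    (hO : SameOn (pm (IR I) J j₁ (pm J J i₁ O)) (OO o) univ) :
    SameOn (pm (IR I) J j₂ (pm J J i₂ O)) (OO (-o)) univ := by
  rw [G.symm.pm_neck, ← pm_fl_OO (I := I)]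
  exact same_pm hO (fun y _ => isOE_fl.loc y) (mapsTo_univ _ _)

/-- forms that agree on the neck `|t| < ε` are patched -/
theorem patch {a₁ : X₁ → Ext E'} {a₂ : X₂ → Ext E'} {ε : ℝ}
    (h : ∀ p : M × ℝ, |p.2| < ε →
      pm (IR I) J j₁ a₁ p = pm (IR I) (IR I) fl (pm (IR I) J j₂ a₂) p) :
    ∃ a : N → Ext E', (∀ x ∉ j₁ '' (univ ×ˢ Ici ε), pm J J i₁ a x = a₁ x) ∧
      ∀ x ∉ j₂ '' (univ ×ˢ Ici ε), pm J J i₂ a x = a₂ x := by
  classical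
  refine ⟨Dr59.glue (i₁ '' (j₁ '' (univ ×ˢ Ici ε))ᶜ) (psh J J i₁ a₁) (psh J J i₂ a₂),
    fun x hx => ?_, fun x hx => ?_⟩
  · rw [pm_congr_right (glue_left (mem_image_of_mem i₁ hx)), pm_psh G.o₁]
  · rw [pm_congr_right (b := psh J J i₂ a₂), pm_psh G.o₂]
    refine glue_right (V := {i₂ x}) ?_ rfl
    rintro _ ⟨⟨p, hp, e⟩, rfl⟩
    obtain ⟨y, t, rfl, rfl⟩ := (G.eq _ _).1 e
    rw [← e]
    refine eq_of_pm (f := i₁ ∘ j₁) ((G.o₁.comp G.e₁).loc (y, t)) ?_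
    rw [← pm_ld_comp G.o₁.loc G.e₁.loc, ← pm_ld_comp G.o₁.loc G.e₁.loc, pm_psh G.o₁, G.pm_neck,
      pm_psh G.o₂]
    exact h _ (abs_lt.2 ⟨neg_lt.1 (lt_of_not_ge fun h => hx ⟨(y, -t), ⟨trivial, h⟩, rfl⟩),
      lt_of_not_ge fun h => hp ⟨(y, t), ⟨trivial, h⟩, rfl⟩⟩)

theorem ev₁ {a : N → Ext E'} {a₁ : X₁ → Ext E'} {ε : ℝ} (hε : 0 < ε)
    (h : ∀ x ∉ j₁ '' (univ ×ˢ Ici ε), pm J J i₁ a x = a₁ x) {x : X₁}
    (hx : x ∉ j₁ '' (univ ×ˢ Ioi 0)) : pm J J i₁ a =ᶠ[𝓝 x] a₁ :=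
  eventually_of_mem ((G.c₁ ε).isOpen_compl.mem_nhds fun h' =>
    hx (image_mono (prod_mono_right (Ici_subset_Ioi.2 hε)) h')) h

/-- patching of smooth forms -/
theorem patch_sm {a₁ : X₁ → Ext E'} {a₂ : X₂ → Ext E'} {ε : ℝ} (hε : 0 < ε) {k : ℕ}
    (s₁ : Sm J univ a₁) (s₂ : Sm J univ a₂) (d₁ : Dg k univ a₁) (d₂ : Dg k univ a₂)
    (h : ∀ p : M × ℝ, |p.2| < ε →
      pm (IR I) J j₁ a₁ p = pm (IR I) (IR I) fl (pm (IR I) J j₂ a₂) p) :
    ∃ a : N → Ext E', Sm J univ a ∧ Dg k univ a ∧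
      (∀ x ∉ j₁ '' (univ ×ˢ Ici ε), pm J J i₁ a x = a₁ x) ∧
      ∀ x ∉ j₂ '' (univ ×ˢ Ici ε), pm J J i₂ a x = a₂ x := by
  obtain ⟨a, h1, h2⟩ := G.patch h
  refine ⟨a, fun x _ => ?_, fun x _ => ?_, h1, h2⟩
  · rcases G.cov0 x with ⟨p, hp, rfl⟩ | ⟨p, hp, rfl⟩
    · exact smAt_of_ld (G.o₁.loc p) ((s₁ p trivial).congr (G.ev₁ hε h1 hp))
    · exact smAt_of_ld (G.o₂.loc p) ((s₂ p trivial).congr (G.symm.ev₁ hε h2 hp))
  · rcases G.cov0 x with ⟨p, hp, rfl⟩ | ⟨p, hp, rfl⟩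
    · rw [eq_of_pm (b := a) (c := psh J J i₁ a₁) (G.o₁.loc p)
        (by rw [pm_psh G.o₁, (G.ev₁ hε h1 hp).eq_of_nhds])]
      exact dg_psh G.o₁ d₁ _ trivial
    · rw [eq_of_pm (b := a) (c := psh J J i₂ a₂) (G.o₂.loc p)
        (by rw [pm_psh G.o₂, (G.symm.ev₁ hε h2 hp).eq_of_nhds])]
      exact dg_psh G.o₂ d₂ _ trivial

theorem pos₁ {O z z' l l' : N → Ext E'} {z₁ z₁' l₁ l₁' : X₁ → Ext E'} {x : X₁}
    (hl : SmAt J l (i₁ x)) (hl' : SmAt J l' (i₁ x))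
    (hz : pm J J i₁ z x = z₁ x) (hz' : pm J J i₁ z' x = z₁' x) (e : pm J J i₁ l =ᶠ[𝓝 x] l₁)
    (e' : pm J J i₁ l' =ᶠ[𝓝 x] l₁')
    (h : 0 < tp E' (pm J J i₁ O x) * tp E' (((z₁ - dM J l₁) * (z₁' - dM J l₁')) x)) :
    0 < tp E' (O (i₁ x)) * tp E' (((z - dM J l) * (z' - dM J l')) (i₁ x)) := by
  rw [← pos_ld (G.o₁.loc x), pm_mul, Pi.mul_apply, pm_sub, pm_sub, Pi.sub_apply, Pi.sub_apply,
    ← dM_pm ne0 (G.o₁.contMDiff x) hl, ← dM_pm ne0 (G.o₁.contMDiff x) hl', dM_congr e,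
    dM_congr e', hz, hz']
  exact h

/-- **join**: pairwise positive families on the two caps give one on the union -/
theorem join [CompactSpace M] {ι : Type*} [Finite ι] {o : M → Ext E} (ho : Ori I o)
    {O : N → Ext E'} (hO : SameOn (pm (IR I) J j₁ (pm J J i₁ O)) (OO o) univ)
    {Z : ι → N → Ext E'} {Z₁ l₁ : ι → X₁ → Ext E'} {Z₂ l₂ : ι → X₂ → Ext E'}
    {B α : ι → M → Ext E} {ε : ℝ} (hε : 0 < ε) (hB : ∀ q, Sm I univ (B q))
    (hB' : ∀ q, Dg 2 univ (B q)) (sα : ∀ q, Sm I univ (α q)) (dα : ∀ q, Dg 1 univ (α q))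
    (pα : ∀ q r, SameOn o (α q * B r + α r * B q) univ)
    (e₁ : ∀ q, ∀ x ∉ j₁ '' (univ ×ˢ Ioi 0), pm J J i₁ (Z q) x = Z₁ q x)
    (e₂ : ∀ q, ∀ x ∉ j₂ '' (univ ×ˢ Ioi 0), pm J J i₂ (Z q) x = Z₂ q x)
    (hZ₁ : ∀ q p, -ε < p.2 → pm (IR I) J j₁ (Z₁ q) p = pu (B q) p)
    (hZ₂ : ∀ q p, -ε < p.2 → pm (IR I) J j₂ (Z₂ q) p = pu (B q) p)
    (s₁ : ∀ q, Sm J univ (l₁ q)) (d₁ : ∀ q, Dg 1 univ (l₁ q))
    (s₂ : ∀ q, Sm J univ (l₂ q)) (d₂ : ∀ q, Dg 1 univ (l₂ q))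
    (z₁ : ∀ q, sl 0 (pm (IR I) J j₁ (l₁ q)) = 0) (z₂ : ∀ q, sl 0 (pm (IR I) J j₂ (l₂ q)) = 0)
    (p₁ : ∀ q r, SameOn (pm J J i₁ O) ((Z₁ q - dM J (l₁ q)) * (Z₁ r - dM J (l₁ r)))
      (j₁ '' (univ ×ˢ Ioi 0))ᶜ)
    (p₂ : ∀ q r, SameOn (pm J J i₂ O) ((Z₂ q - dM J (l₂ q)) * (Z₂ r - dM J (l₂ r)))
      (j₂ '' (univ ×ˢ Ioi 0))ᶜ) :
    ∃ (l : ι → N → Ext E') (η δ : ℝ), 0 < η ∧ 0 < δ ∧ (∀ q, Sm J univ (l q)) ∧
      (∀ q, Dg 1 univ (l q)) ∧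
      (∀ q p, |p.2| < η → pm (IR I) J j₁ (pm J J i₁ (l q)) p = -((δ * p.2) • pu (α q) p)) ∧
      ∀ q r, SameOn O ((Z q - dM J (l q)) * (Z r - dM J (l r))) univ := by
  obtain ⟨ε₁, δ₁, a1, -, a2, h₁⟩ := nf_star G.e₁ G.c₁ ho hO hε hB hB' sα dα hZ₁ s₁ d₁ z₁ p₁ pα 0 0
  obtain ⟨ε₂, δ₂, b1, -, b2, h₂⟩ := nf_star (α := fun q => -α q) G.e₂ G.c₂ (ori_neg ho)
    (G.same_right hO) hε hB hB' (fun q => (sα q).neg) (fun q => (dα q).neg) hZ₂ s₂ d₂ z₂ p₂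
    (fun q r => by rw [neg_mul, neg_mul, ← neg_add]; exact same_neg (pα q r)) 0 0
  obtain ⟨m₁, a3, a4, -, a5, a6⟩ := h₁ (min δ₁ δ₂) ⟨lt_min a2 b2, min_le_left _ _⟩
  obtain ⟨m₂, b3, b4, -, b5, b6⟩ := h₂ (min δ₁ δ₂) ⟨lt_min a2 b2, min_le_right _ _⟩
  have key : ∀ q (p : M × ℝ), |p.2| < min ε₁ ε₂ →
      pm (IR I) J j₁ (m₁ q) p = pm (IR I) (IR I) fl (pm (IR I) J j₂ (m₂ q)) p := fun q p hp => by
    obtain ⟨c1, c2⟩ := abs_lt.1 hp
    have c3 := congrFun (pm_fl_pu (I := I) (α q)) p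
    rw [pm_apply] at c3
    rw [a5 q p (by linarith [min_le_left ε₁ ε₂]), pm_apply,
      b5 q (fl p) (neg_le_neg (c2.le.trans (min_le_right _ _))), map_neg, map_smul,
      show pu (-α q) (fl p) = -pu (α q) (fl p) from map_neg up _, map_neg, c3]
    simp [fl]
  choose l l1 l2 l3 l4 using fun q =>
    G.patch_sm (lt_min a1 b1) (a3 q) (b3 q) (a4 q) (b4 q) (key q)
  refine ⟨l, min ε₁ ε₂, min δ₁ δ₂, lt_min a1 b1, lt_min a2 b2, l1, l2, fun q p hp => ?_,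
    fun q r x _ => ?_⟩
  · obtain ⟨c1, c2⟩ := abs_lt.1 hp
    rw [pm_congr_right (l3 q _ (notMem_Ici G.e₁ c2)), a5 q p (by linarith [min_le_left ε₁ ε₂]),
      sub_zero]
  rcases G.cov0 x with ⟨p, hp, rfl⟩ | ⟨p, hp, rfl⟩
  · exact G.pos₁ (l1 q _ trivial) (l1 r _ trivial) (e₁ q p hp) (e₁ r p hp)
      (G.ev₁ (lt_min a1 b1) (l3 q) hp) (G.ev₁ (lt_min a1 b1) (l3 r) hp) (a6 q r p hp)
  · exact G.symm.pos₁ (l1 q _ trivial) (l1 r _ trivial) (e₂ q p hp) (e₂ r p hp)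
      (G.symm.ev₁ (lt_min a1 b1) (l4 q) hp) (G.symm.ev₁ (lt_min a1 b1) (l4 r) hp) (b6 q r p hp)

/-- patching of closed forms -/
theorem patch_cl {a₁ : X₁ → Ext E'} {a₂ : X₂ → Ext E'} {ε : ℝ} (hε : 0 < ε) {k : ℕ}
    (s₁ : Cl J k univ a₁) (s₂ : Cl J k univ a₂)
    (h : ∀ p : M × ℝ, |p.2| < ε →
      pm (IR I) J j₁ a₁ p = pm (IR I) (IR I) fl (pm (IR I) J j₂ a₂) p) :
    ∃ a : N → Ext E', Cl J k univ a ∧ (∀ x ∉ j₁ '' (univ ×ˢ Ici ε), pm J J i₁ a x = a₁ x) ∧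
      ∀ x ∉ j₂ '' (univ ×ˢ Ici ε), pm J J i₂ a x = a₂ x := by
  obtain ⟨a, h1, h2, h3, h4⟩ := G.patch_sm hε s₁.sm s₂.sm s₁.dg s₂.dg h
  refine ⟨a, ⟨h1, h2, fun x _ => ?_⟩, h3, h4⟩
  rcases G.cov0 x with ⟨p, hp, rfl⟩ | ⟨p, hp, rfl⟩
  · refine eq_of_pm (c := 0) (G.o₁.loc p) ?_
    rw [← dM_pm ne0 (G.o₁.contMDiff p) (h1 _ trivial), dM_congr (G.ev₁ hε h3 hp), s₁.cl p trivial]
    exact (map_zero _).symm
  · refine eq_of_pm (c := 0) (G.o₂.loc p) ?_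
    rw [← dM_pm ne0 (G.o₂.contMDiff p) (h1 _ trivial), dM_congr (G.symm.ev₁ hε h4 hp),
      s₂.cl p trivial]
    exact (map_zero _).symm

/-- the orientation of the join -/
theorem exists_ori [T2Space N] [SigmaCompactSpace N] {o : M → Ext E} {O₁ : X₁ → Ext E'}
    {O₂ : X₂ → Ext E'} (h₁ : Ori J O₁) (h₂ : Ori J O₂)
    (c₁ : SameOn (pm (IR I) J j₁ O₁) (OO o) univ) (c₂ : SameOn (pm (IR I) J j₂ O₂) (OO (-o)) univ) :
    ∃ O, Ori J O ∧ SameOn (pm J J i₁ O) O₁ univ ∧ SameOn (pm J J i₂ O) O₂ univ := by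
  obtain ⟨O, a, -, b, c⟩ := exists_ori_two G.o₁.loc G.o₂.loc G.o₁.inj G.o₂.inj G.cov h₁ h₂
    fun a b e => by
      obtain ⟨y, t, rfl, rfl⟩ := (G.eq _ _).1 e
      have k1 := c₁ (y, t) trivial
      have k2 := same_pm c₂ (fun y _ => (isOE_fl (I := I)).loc y) (mapsTo_univ _ univ) (y, t) trivial
      rw [pm_fl_OO, neg_neg, tp_ld (isOE_fl.loc _), tp_ld (G.e₂.loc _)] at k2
      rw [tp_ld (G.e₁.loc _)] at k1
      have k4 := congrArg (tp _) (congrFun (G.pm_neck fun _ => vol0 E') (y, t))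
      rw [tp_ld (G.e₁.loc _), tp_ld (G.o₁.loc _), tp_ld (isOE_fl.loc _), tp_ld (G.e₂.loc _),
        tp_ld (G.o₂.loc _), tp_vol0] at k4
      exact sign_alg k1 k2 k4 (mul_ne_zero (jac_ld (G.e₁.loc _)) (jac_ld (G.o₁.loc _)))
  exact ⟨O, a, b, c⟩

end Jg

end join

end Crest.Agent.X212.Sym24
end
end

-- ▼ part X212/Sym24/Main

/-!
# X212 / Sym24, part 6 (helper24): `Bb31.NfStmt` and `Bb31.JoinStmt`
-/

set_option autoImplicit false
set_option linter.unusedSectionVars false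

open Set Filter Topology Function Module
open scoped ContDiff Manifold
open Crest.Agent.R208 Crest.Agent.R208.F Crest.Agent.R208.FI
open Crest.Agent.X212.Dr59 Crest.Agent.X212.Int54 Crest.Agent.X212.Orx52 Crest.Agent.X212.Cyl58
open Crest.Agent.X212.Sep15 (EE CM End Box slab Jo)
open Crest.Agent.X212.Bb31 (Fm Cy En SP PP F1 Z2 sh Gd UC0 UC OC Ph BBR NfStmt JoinStmt)

noncomputable section

namespace Crest.Agent.X212.Sym24

section gen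

variable {E : Type*} [NormedAddCommGroup E] [NormedSpace ℝ E] [FiniteDimensional ℝ E]
  {H : Type*} [TopologicalSpace H] {I : ModelWithCorners ℝ E H} [I.Boundaryless]
  {M : Type*} [TopologicalSpace M] [ChartedSpace H M] [IsManifold I ∞ M]
  {E' : Type*} [NormedAddCommGroup E'] [NormedSpace ℝ E'] [FiniteDimensional ℝ E']
  {H' : Type*} [TopologicalSpace H'] {J : ModelWithCorners ℝ E' H'} [J.Boundaryless]
  {N : Type*} [TopologicalSpace N] [ChartedSpace H' N] [IsManifold J ∞ N]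

theorem cl_pu {k : ℕ} {b : M → Ext E} (h : Cl I k univ b) : Cl (IR I) k univ (pu b) := by
  rw [← pm_fst (I := I)]
  exact h.pm (Mp.of_contMDiff contMDiff_fst (mapsTo_univ _ _))

/-- a closed form which is independent of `t` on a neck is extended over the end -/
theorem exists_ext {j : M × ℝ → N} (hj : IsOE (IR I) J j)
    (hc : IsClosed (j '' (univ ×ˢ Ici 1))) {k : ℕ} {z : N → Ext E'} {b : M → Ext E}
    (hz : Cl J k univ z) (hb : Cl I k univ b)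
    (h : ∀ p : M × ℝ, |p.2| < 1 → pm (IR I) J j z p = pu b p) :
    ∃ z', Cl J k univ z' ∧ (∀ x ∉ j '' (univ ×ˢ Ici 1), z' x = z x) ∧
      ∀ p : M × ℝ, -1 < p.2 → pm (IR I) J j z' p = pu b p := by
  obtain ⟨A, h1, h2, -, -, h3⟩ := Bb31.exists_patch' (a := pu b) (b := z)
    ((Bb31.OE.of_oe hj).mono (isOpen_univ.prod (isOpen_Ioi (a := (-1 : ℝ)))) (subset_univ _))
    hc.isOpen_compl (fun x => (em _).symm.imp_right fun hx => image_mono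
      (prod_mono_right (Ici_subset_Ioi.2 (by norm_num))) hx)
    fun p hp hp' => h p (abs_lt.2 ⟨hp.2, lt_of_not_ge fun h => hp' ⟨p, ⟨trivial, h⟩, rfl⟩⟩)
  exact ⟨A, h3 k (hz.mono (subset_univ _)) ((cl_pu hb).mono (subset_univ _)), h1,
    fun p hp => h2 p ⟨trivial, hp⟩⟩

theorem rat_OO_dt (o : M → Ext E) (c : M × ℝ → Ext (E × ℝ)) (p : M × ℝ) :
    rat (OO o) (dt E M * c) p = rat o (sl p.2 c) p.1 := by
  rw [rat_OO, Pi.mul_apply, dt, nc_dT_mul]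
  rfl

end gen

theorem exists_pos_lt {ι : Type*} [Finite ι] {ε : ι → ℝ} (h : ∀ q, 0 < ε q) :
    ∃ e, 0 < e ∧ ∀ q, e < ε q := by
  obtain ⟨e, h1, h2⟩ := ((eventually_all.2 fun q => Ioo_mem_nhdsGT (h q)).and
    self_mem_nhdsWithin).exists
  exact ⟨e, h2, fun q => (h1 q).2⟩

variable {Y : CM 3}

theorem en_unif {C : End Y} {ι : Type} [Finite ι] {a : ι → Fm 4 C.X} {b : ι → Fm 3 Y}
    (h : ∀ q, En C.j (a q) (b q)) :
    ∃ ε, 0 < ε ∧ ∀ q p, -ε < p.2 → pm (IR (𝓡 3)) (𝓡 4) C.j (a q) p = pu (b q) p := by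
  choose ε h0 h using h
  obtain ⟨e, h1, h2⟩ := exists_pos_lt h0
  exact ⟨e, h1, fun q p hp => h q p ((neg_lt_neg (h2 q)).trans hp)⟩

theorem z2_of_en {C : End Y} {a : Fm 4 C.X} {b : Fm 3 Y} (ha : Z2 a) (h : En C.j a b) : Z2 b := by
  obtain ⟨ε, hε, h⟩ := h
  have e : b = pm (𝓡 3) (IR (𝓡 3)) (fun x => (x, (0 : ℝ))) (pm (IR (𝓡 3)) (𝓡 4) C.j a) := by
    rw [pm_inl]
    funext y
    rw [sl, h _ (neg_neg_of_pos hε), pu, dn_up]
  rw [e]
  exact (ha.pm (Mp.of_contMDiff C.oe.contMDiff (mapsTo_univ _ univ))).pm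
    (Mp.of_contMDiff (contMDiff_id.prodMk contMDiff_const) (mapsTo_univ _ univ))

theorem same_of_pp {C : End Y} {O : Fm 4 C.X} {ι : Type} {ζ la : ι → Fm 4 C.X} {T : ℝ}
    (h : PP O (fun q => ζ q - dM (𝓡 4) (la q)) (C.K T)) (q r : ι) :
    SameOn O ((ζ q - dM (𝓡 4) (la q)) * (ζ r - dM (𝓡 4) (la r))) (C.j '' (univ ×ˢ Ioi T))ᶜ :=
  fun x hx => pos_rat.1 (h q r x hx)

theorem nfStmt : NfStmt := by
  rintro Y C o O ho - hO ι _ ζ B hζ hE ⟨la, l1, l2, l3⟩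
  obtain ⟨ε, hε, hZ⟩ := en_unif hE
  have hB := fun q => z2_of_en (hζ q) (hE q)
  refine ⟨fun q => nn (𝓡 3) (𝓡 4) C.j (B q) (la q),
    fun q => ⟨sm_nn C.oe (hB q).sm (l1 q).sm, dg_nn (hB q).dg (l1 q).dg⟩,
    fun q r p => pos_rat.2 (same_nn C.oe hO (fun q => (hB q).dg)
      (fun q y => hZ q _ (neg_neg_of_pos hε)) (fun q => (l1 q).sm) (fun q => (l1 q).dg) l2
      (same_of_pp l3) q r p trivial), fun α hα pα T T' => ?_⟩
  obtain ⟨ε', δ₁, a1, -, a2, h⟩ := nf_star C.oe C.isClosed_Ici ho hO hε (fun q => (hB q).sm)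
    (fun q => (hB q).dg) (fun q => (hα q).sm) (fun q => (hα q).dg) hZ (fun q => (l1 q).sm)
    (fun q => (l1 q).dg) l2 (same_of_pp l3) (fun q r p _ => pos_rat.1 (pα q r p)) T T'
  refine ⟨ε', a1, δ₁, a2, fun δ h1 h2 => ?_⟩
  obtain ⟨l, b1, b2, -, b3, b4⟩ := h δ ⟨h1, h2⟩
  exact ⟨l, fun q => ⟨b1 q, b2 q⟩, fun q p hp => (b3 q p hp.le).trans (neg_smul _ _).symm,
    fun q r x hx => pos_rat.2 (b4 q r x hx)⟩

theorem uc0 {C : End Y} {O : Fm 4 C.X} {A D : Set (Fm 3 Y)} (h : UC C O A D) : UC0 C O A D := by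
  have e : (sh C 0).j = C.j := funext fun p => by simp [sh]
  have := h 0
  unfold UC0 Gd End.K at this ⊢
  rw [e] at this
  exact this

theorem jg {C₁ C₂ : End Y} {X : CM 4} (J : Jo C₁ C₂ X) : Jg (𝓡 3) (𝓡 4) C₁.j C₂.j J.i₁ J.i₂ :=
  ⟨C₁.oe, C₂.oe, C₁.isClosed_Ici, C₂.isClosed_Ici, J.o₁, J.o₂, J.cov, J.eq⟩

/-- one side of the join -/
theorem side {C : End Y} {O : Fm 4 C.X} {A : Set (Fm 3 Y)} (h : UC C O A {0}) {β : Fm 3 Y}
    (hβ : Z2 β) (hA : β ∈ A) {ι : Type} [Finite ι] {z : ι → Fm 4 C.X} (hz : ∀ q, Z2 (z q))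
    (e : ∀ q (p : Y × ℝ), |p.2| < 1 → pm (IR (𝓡 3)) (𝓡 4) C.j (z q) p = pu β p) :
    ∃ (Z la : ι → Fm 4 C.X) (v : Fm 4 C.X) (ε : ℝ), 0 < ε ∧ ε ≤ 1 ∧ Z2 v ∧
      (∀ p : Y × ℝ, -ε < p.2 → pm (IR (𝓡 3)) (𝓡 4) C.j v p = 0) ∧
      (∀ q, ∀ x ∉ C.j '' (univ ×ˢ Ici 1), Z q x = z q x + v x) ∧
      (∀ q (p : Y × ℝ), -ε < p.2 → pm (IR (𝓡 3)) (𝓡 4) C.j (Z q) p = pu β p) ∧
      (∀ q, F1 (la q)) ∧ (∀ q, sl 0 (pm (IR (𝓡 3)) (𝓡 4) C.j (la q)) = 0) ∧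
      PP O (fun q => Z q - dM (𝓡 4) (la q)) (C.K 0) := by
  choose z' z1 z2 z3 using fun q => exists_ext C.oe (C.isClosed_Ici 1) (hz q) hβ (e q)
  obtain ⟨d, hd, v, v1, ⟨ε, hε, v2⟩, la, l1, l2, l3⟩ := uc0 h ι z' (fun _ => β) z1 (fun _ => hA)
    fun q => ⟨1, one_pos, z3 q⟩
  obtain rfl : d = 0 := hd
  have v3 : ∀ p : Y × ℝ, -min ε 1 < p.2 → pm (IR (𝓡 3)) (𝓡 4) C.j v p = 0 := fun p hp =>
    (v2 p ((neg_le_neg (min_le_left _ _)).trans_lt hp)).trans (map_zero up)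
  refine ⟨fun q => z' q + v, la, v, min ε 1, lt_min hε one_pos, min_le_right _ _, v1, v3,
    fun q x hx => congrArg (· + v x) (z2 q x hx), fun q p hp => ?_, l1, l2, l3⟩
  rw [pm_add, Pi.add_apply, v3 p hp, z3 q p ((neg_le_neg (min_le_right _ _)).trans_lt hp), add_zero]

theorem tau_nonneg {R : CM 2} {o β τ : Fm 3 Y} {oR : Fm 2 R} {b : R × ℝ → Y} {k : ℝ → ℝ}
    (hR : Ori (𝓡 2) oR) (hβ : Z2 β) (hb : Box b) (hc : Cy oR o b) (hs : SP oR b β (Ioo (-1) 1))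
    (hk : ∀ y, 0 ≤ k y) (hτ : ∀ p, pm (IR (𝓡 2)) (𝓡 3) b τ p = k p.2 • dT (EE 2))
    (h0 : ∀ p ∉ slab b (Icc (-2⁻¹) 2⁻¹), τ p = 0) {c : Fm 3 Y} (hc' : Sm (𝓡 3) univ c) :
    ∀ᶠ s : ℝ in 𝓝 0, ∀ y, 0 ≤ rat o (τ * (β + s • c)) y := by
  have hO := ori_OO hR
  have ct : ∀ {a : Fm 3 Y}, Sm (𝓡 3) univ a →
      Continuous (rat (OO oR) (dt (EE 2) R * pm (IR (𝓡 2)) (𝓡 3) b a)) := fun ha =>
    continuous_iff_continuousAt.2 fun p => contAt_rat (hO.sm p) (hO.ne p)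
      ((smAt_dt p).mul (SmAt.pm (hb.contMDiff p) (ha _ trivial)))
  have c1 := ct hβ.sm
  have c2 := ct hc'
  have := ((isCompact_univ (X := R)).prod (isCompact_Icc (a := (-2⁻¹ : ℝ)) (b := 2⁻¹))
    ).eventually_forall_of_forall_eventually (x₀ := (0 : ℝ))
    (P := fun s p => 0 < rat (OO oR) (dt (EE 2) R * pm (IR (𝓡 2)) (𝓡 3) b β) p +
      s * rat (OO oR) (dt (EE 2) R * pm (IR (𝓡 2)) (𝓡 3) b c) p) fun p hp => by
      have c : ContinuousAt (fun z : ℝ × R × ℝ =>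
          rat (OO oR) (dt (EE 2) R * pm (IR (𝓡 2)) (𝓡 3) b β) z.2 +
          z.1 * rat (OO oR) (dt (EE 2) R * pm (IR (𝓡 2)) (𝓡 3) b c) z.2) (0, p) := by fun_prop
      refine c.eventually (lt_mem_nhds ?_)
      simp only [zero_mul, add_zero, rat_OO_dt]
      exact hs p.1 p.2 ⟨by linarith [hp.2.1], by linarith [hp.2.2]⟩
  filter_upwards [this] with s hs y
  by_cases hy : y ∈ slab b (Icc (-2⁻¹) 2⁻¹)
  · obtain ⟨p, hp, rfl⟩ := hy
    refine Bb31.nonneg_ld (hb.loc p) (hc p trivial) ((mul_nonneg (hk p.2) (hs p hp).le).trans_eq ?_)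
    simp only [rat, OO, dt, pm_mul, pm_add, pm_smul, hτ, Pi.mul_apply, Pi.add_apply, Pi.smul_apply,
      mul_add, smul_mul_assoc, mul_smul_comm, map_add, map_smul, smul_eq_mul]
    ring
  · simp [rat, h0 y hy]

theorem joinStmt : JoinStmt := by
  rintro Y R C₁ C₂ X J o β τ A₁ A₂ oR b k ho hR ⟨O₁, o1, c1, u1⟩ ⟨O₂, o2, c2, u2⟩ a1 a2 hβ hb hc hs
    hτ hk eτ zτ
  have G := jg J
  obtain ⟨O, hO, s1, s2⟩ := G.exists_ori o1 o2 c1 c2
  have hn := J.o₁.comp C₁.oe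
  have en : ∀ a : Fm 4 X, pm (IR (𝓡 3)) (𝓡 4) C₁.j (pm (𝓡 4) (𝓡 4) J.i₁ a) =
      pm (IR (𝓡 3)) (𝓡 4) (J.i₁ ∘ C₁.j) a := pm_ld_comp J.o₁.loc C₁.oe.loc
  have cO : SameOn (pm (IR (𝓡 3)) (𝓡 4) C₁.j (pm (𝓡 4) (𝓡 4) J.i₁ O)) (OO o) univ :=
    same_trans (same_pm s1 (fun y _ => C₁.oe.loc y) (mapsTo_univ _ _)) c1
  have cO' : SameOn (pm (IR (𝓡 3)) (𝓡 4) (J.i₁ ∘ C₁.j) O) (OO o) univ := en O ▸ cO
  refine ⟨O, hO, cO', fun ι _ ζ hζ he => ?_⟩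
  choose l l1 l2 _ l3 using fun q => exists_nrm hn (hζ q) hβ.dg (he q) 1
  have z : ∀ q, Z2 (ζ q - dM (𝓡 4) (l q)) := fun q => (hζ q).sub (cl_dM isOpen_univ (l1 q) (l2 q))
  obtain ⟨Z₁, la₁, v₁, ε₁, p1, p2, p3, p4, p5, p6, p7, p8, p9⟩ := side u1 hβ a1
    (fun q => (z q).pm (Mp.of_contMDiff J.o₁.contMDiff (mapsTo_univ _ univ)))
    fun q p hp => by rw [en, l3 q p hp]
  obtain ⟨Z₂, la₂, v₂, ε₂, q1, q2, q3, q4, q5, q6, q7, q8, q9⟩ := side u2 hβ a2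
    (fun q => (z q).pm (Mp.of_contMDiff J.o₂.contMDiff (mapsTo_univ _ univ)))
    fun q p hp => by
      rw [G.symm.pm_neck, en, pm_congr_right (l3 q (fl p) (by rwa [fl, abs_neg])), pm_fl_pu]
  have m1 := min_le_left ε₁ ε₂
  have m2 := min_le_right ε₁ ε₂
  have mp := lt_min p1 q1
  obtain ⟨v, v1, v2, v3⟩ := G.patch_cl mp p3 q3 fun p hp => by
    obtain ⟨h1, h2⟩ := abs_lt.1 hp
    rw [p4 p (by linarith), pm_apply, q4 (fl p) (neg_lt_neg (h2.trans_le m2)), map_zero]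
  have vn : ∀ p : Y × ℝ, |p.2| < min ε₁ ε₂ → pm (IR (𝓡 3)) (𝓡 4) (J.i₁ ∘ C₁.j) v p = 0 :=
    fun p hp => by
      obtain ⟨h1, h2⟩ := abs_lt.1 hp
      rw [← en, pm_congr_right (v2 _ (notMem_Ici C₁.oe h2)), p4 p (by linarith)]
  have sub : ∀ {C : End Y} {T : ℝ}, 0 < T → ∀ x ∉ C.j '' (univ ×ˢ Ioi 0),
      x ∉ C.j '' (univ ×ˢ Ici T) := fun h x hx h' =>
    hx (image_mono (prod_mono_right (Ici_subset_Ioi.2 h)) h')
  have r1 := fun q r => same_trans (s1.mono (subset_univ _)) (same_of_pp p9 q r)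
  let α : ι → Fm 3 Y := fun q => nn (𝓡 3) (𝓡 4) C₁.j β (la₁ q)
  have sα : ∀ q, Sm (𝓡 3) univ (α q) := fun q => sm_nn C₁.oe hβ.sm (p7 q).sm
  obtain ⟨m, η, δ, k1, k2, k3, k4, k5, k6⟩ := G.join (B := fun _ => β) (α := α)
    (Z := fun q => ζ q - dM (𝓡 4) (l q) + v) ho cO mp (fun _ => hβ.sm) (fun _ => hβ.dg) sα
    (fun q => dg_nn hβ.dg (p7 q).dg)
    (same_nn (B := fun _ => β) C₁.oe cO (fun _ => hβ.dg) (fun q y => p6 q _ (neg_neg_of_pos p1))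
      (fun q => (p7 q).sm) (fun q => (p7 q).dg) p8 r1)
    (fun q x hx => by rw [pm_add, Pi.add_apply, v2 x (sub mp x hx), p5 q x (sub one_pos x hx)])
    (fun q x hx => by rw [pm_add, Pi.add_apply, v3 x (sub mp x hx), q5 q x (sub one_pos x hx)])
    (fun q p hp => p6 q p (by linarith)) (fun q p hp => q6 q p (by linarith))
    (fun q => (p7 q).sm) (fun q => (p7 q).dg) (fun q => (q7 q).sm) (fun q => (q7 q).dg) p8 q8 r1
    fun q r => same_trans (s2.mono (subset_univ _)) (same_of_pp q9 q r)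
  have ew : ∀ q, ζ q + v - dM (𝓡 4) (l q + m q) = ζ q - dM (𝓡 4) (l q) + v - dM (𝓡 4) (m q) :=
    fun q => funext fun x => by
      simp only [Pi.sub_apply, Pi.add_apply, dM_add ne0 (l1 q x trivial) (k3 q x trivial)]
      abel
  obtain ⟨r, r0, hr⟩ := Metric.eventually_nhds_iff.1 (eventually_all.2 fun q =>
    tau_nonneg hR hβ hb hc hs hk eτ zτ (sα q).dM)
  obtain ⟨e, e0, he⟩ := exists_pos_lt (ε := ![η, min ε₁ ε₂, r / δ])
    (Fin.forall_fin_succ.2 ⟨k1, Fin.forall_fin_two.2 ⟨mp, div_pos r0 k2⟩⟩)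
  have e1 : e < η := he 0
  have e2 : e < min ε₁ ε₂ := he 1
  have e3 : e < r / δ := he 2
  let f : ContDiffBump (0 : ℝ) := ⟨e / 2, e, half_pos e0, half_lt_self e0⟩
  let g := f.normed MeasureTheory.volume
  refine ⟨v, fun q => l q + m q, g, psh (IR (𝓡 3)) (𝓡 4) (J.i₁ ∘ C₁.j)
    (ft Y g • (dt (EE 3) Y * pu τ)), v1, funext fun y => ?_,
    fun q => ⟨(l1 q).add (k3 q), (l2 q).add (k4 q)⟩, ⟨f.contDiff_normed, ?_, f.integral_normed,
      fun p => by rw [pm_psh hn]; rfl, fun x hx => psh_of_notMem hx⟩,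
    fun q r x _ => ?_, fun q x => ?_⟩
  · rw [sl, vn _ (by simpa using mp), map_zero, Pi.zero_apply]
  · rw [f.tsupport_normed_eq, Real.closedBall_eq_Icc, zero_sub, zero_add]
    exact Icc_subset_Ioo (neg_lt_neg (by linarith)) (by linarith)
  · simp only [ew]
    exact pos_rat.2 (k6 q r x trivial)
  by_cases hx : x ∈ range (J.i₁ ∘ C₁.j)
  swap
  · simp [rat, psh_of_notMem hx]
  obtain ⟨p, rfl⟩ := hx
  refine Bb31.nonneg_ld (o' := OO o) (hn.loc p) (cO' p trivial) ?_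
  rw [pm_mul, pm_psh hn]
  by_cases hg : g p.2 = 0
  · simp [rat, ft, hg]
  have t1 : |p.2| < e := by
    have : p.2 ∈ Function.support g := hg
    rwa [f.support_normed_eq, mem_ball_zero_iff] at this
  have w : pm (IR (𝓡 3)) (𝓡 4) (J.i₁ ∘ C₁.j) (ζ q + v - dM (𝓡 4) (l q + m q)) p =
      up (β p.1 + (δ * p.2) • dM (𝓡 3) (α q) p.1) + δ • (dT (EE 3) * up (α q p.1)) := by
    have ev : pm (IR (𝓡 3)) (𝓡 4) (J.i₁ ∘ C₁.j) (m q) =ᶠ[𝓝 p] -(ft Y (δ * ·) • pu (α q)) := by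
      filter_upwards [(continuous_snd.abs.tendsto p).eventually (Iio_mem_nhds (t1.trans e1))]
        with x hx
      rw [← en, k5 q x hx]
      rfl
    rw [ew, pm_sub, pm_add, Pi.sub_apply, Pi.add_apply, l3 q p (by linarith), vn p (by linarith),
      ← dM_pm ne0 (hn.contMDiff p) (k3 q _ trivial), dM_congr ev, dM_neg, Pi.neg_apply,
      dM_ft (g := (δ * ·)) (contDiff_const.mul contDiff_id) (smAt_pu (sα q _ trivial)), dM_pu (sα q _ trivial)]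
    simp only [pu, map_add, map_smul, deriv_const_mul_id]
    abel
  have t2 := @hr (δ * p.2) (by
    rw [dist_zero_right, Real.norm_eq_abs, abs_mul, abs_of_pos k2, ← lt_div_iff₀' k2]
    exact t1.trans e3) q p.1
  refine (mul_nonneg (show 0 ≤ g p.2 from f.nonneg_normed p.2) t2).trans_eq ?_
  have d2 : IsDeg 2 (β p.1 + (δ * p.2) • dM (𝓡 3) (α q) p.1) := (hβ.dg _ trivial).add
    (((dg_nn hβ.dg (p7 q).dg).dM isOpen_univ _ trivial).smul _)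
  rw [rat_OO, Pi.mul_apply, w, rat]
  simp only [ft, dt, pu, Pi.mul_apply, Pi.add_apply, Pi.smul_apply, Pi.smul_apply']
  rw [mul_smul_comm, add_mul, smul_mul_assoc, dT_mul_dT (isDeg_up (dg_nn hβ.dg (p7 q).dg _ trivial)),
    smul_zero, add_zero, map_smul, nc_up_mul, nc_dT_mul, dn_up, inv2 d2, comm2 d2, map_smul,
    smul_eq_mul, mul_div_assoc]

end Crest.Agent.X212.Sym24
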