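import Mathlib
import Crest.Agent.X212.Sym24.Hop

-- ▼ part X212/Sym24/Cut
section

/-!
# X212 / Sym24, part 3 (helper24): two cut-off functions of one real variable

`exists_log` (logarithmic cut-off, `|t χ'| ≤ κ`), `exists_stretch` (`t` to `δ (t - T)`, monotone).
-/

set_option autoImplicit false

open Set Filter Topology Function Real
open scoped ContDiff

namespace Crest.Agent.X212.Sym24

theorem st_diff (x : ℝ) : HasDerivAt smoothTransition (deriv smoothTransition x) x :=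
  ((smoothTransition.contDiff (n := 1)).differentiable (by simp) x).hasDerivAt

theorem st_deriv_zero {x : ℝ} (hx : x ∉ Icc (0 : ℝ) 1) : deriv smoothTransition x = 0 := by
  rcases not_and_or.1 hx with h | h
  · have : smoothTransition =ᶠ[𝓝 x] fun _ => 0 := by
      filter_upwards [Iio_mem_nhds (not_le.1 h)] with y hy using
        smoothTransition.zero_of_nonpos (le_of_lt hy)
    rw [this.deriv_eq, deriv_const]
  · have : smoothTransition =ᶠ[𝓝 x] fun _ => 1 := by
      filter_upwards [Ioi_mem_nhds (not_le.1 h)] with y hy using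
        smoothTransition.one_of_one_le (le_of_lt hy)
    rw [this.deriv_eq, deriv_const]

theorem exists_st_bd : ∃ L, 0 < L ∧ ∀ x, |deriv smoothTransition x| ≤ L := by
  have hc : Continuous (deriv smoothTransition) :=
    (smoothTransition.contDiff (n := 1)).continuous_deriv le_rfl
  obtain ⟨L, hL⟩ := isCompact_Icc.exists_bound_of_continuousOn
    (hc.continuousOn (s := Icc (0 : ℝ) 1))
  refine ⟨|L| + 1, by positivity, fun x => ?_⟩
  by_cases hx : x ∈ Icc (0 : ℝ) 1
  · exact (hL x hx).trans ((le_abs_self L).trans (by linarith))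
  · rw [st_deriv_zero hx, abs_zero]
    positivity

/-- the logarithmic cut-off -/
theorem exists_log {δ κ : ℝ} (hδ : 0 < δ) (hκ : 0 < κ) : ∃ (χ : ℝ → ℝ) (ε : ℝ), ContDiff ℝ ∞ χ ∧
    0 < ε ∧ ε < δ ∧ (∀ t, χ t ∈ Icc (0 : ℝ) 1) ∧ (∀ t ≤ -δ, χ t = 0) ∧ (∀ t, -ε ≤ t → χ t = 1) ∧
    ∀ t, |t * deriv χ t| ≤ κ := by
  obtain ⟨L, hL, hb⟩ := exists_st_bd
  set k := κ / L with hk
  have k0 : 0 < k := div_pos hκ hL
  let g : ℝ → ℝ := fun t => smoothTransition (-k * log (t / δ))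
  let χ : ℝ → ℝ := fun t => if t < 0 then g t else 1
  have e0 : 0 < δ * exp (-k⁻¹) := mul_pos hδ (exp_pos _)
  have h1 : ∀ t, -(δ * exp (-k⁻¹)) ≤ t → χ t = 1 := fun t ht => by
    by_cases h : t < 0
    · refine (if_pos h).trans (smoothTransition.one_of_one_le ?_)
      have h2 : log (t / δ) ≤ -k⁻¹ := by
        rw [← log_neg_eq_log, ← neg_div, log_le_iff_le_exp (div_pos (neg_pos.2 h) hδ),
          div_le_iff₀ hδ]
        linarith
      have := mul_le_mul_of_nonneg_left h2 k0.le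
      rw [mul_neg, mul_inv_cancel₀ k0.ne'] at this
      linarith
    · exact if_neg h
  have hn : ∀ t < 0, χ =ᶠ[𝓝 t] g := fun t ht => by
    filter_upwards [Iio_mem_nhds ht] with s hs using if_pos hs
  have hp : ∀ t, ¬t < 0 → χ =ᶠ[𝓝 t] fun _ => 1 := fun t ht => by
    filter_upwards [Ioi_mem_nhds (show -(δ * exp (-k⁻¹)) < t by linarith [not_lt.1 ht])] with s hs
      using h1 s (le_of_lt hs)
  refine ⟨χ, δ * exp (-k⁻¹), contDiff_iff_contDiffAt.2 fun t => ?_, e0, ?_, fun t => ?_,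
    fun t ht => ?_, h1, fun t => ?_⟩
  · by_cases h : t < 0
    · exact ContDiffAt.congr_of_eventuallyEq (smoothTransition.contDiffAt.comp t
        (contDiffAt_const.mul ((contDiffAt_id.div_const δ).log (div_ne_zero h.ne hδ.ne')))) (hn t h)
    · exact contDiffAt_const.congr_of_eventuallyEq (hp t h)
  · exact mul_lt_of_lt_one_right hδ (exp_lt_one_iff.2 (neg_neg_of_pos (inv_pos.2 k0)))
  · by_cases h : t < 0
    · rw [show χ t = g t from if_pos h]
      exact ⟨smoothTransition.nonneg _, smoothTransition.le_one _⟩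
    · rw [show χ t = 1 from if_neg h]
      exact ⟨zero_le_one, le_rfl⟩
  · refine (if_pos (by linarith)).trans (smoothTransition.zero_of_nonpos ?_)
    have h2 : 0 ≤ log (t / δ) := by
      rw [← log_neg_eq_log, ← neg_div]
      exact log_nonneg ((one_le_div hδ).2 (by linarith))
    have := mul_nonneg k0.le h2
    linarith
  · by_cases h : t < 0
    · have h2 : HasDerivAt g _ t := (st_diff _).comp t
        ((((hasDerivAt_id t).div_const δ).log (div_ne_zero h.ne hδ.ne')).const_mul (-k))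
      rw [(hn t h).deriv_eq, h2.deriv]
      have h3 : ∀ s : ℝ, t * (s * (-k * (1 / δ / (id t / δ)))) = -(k * s) := fun s => by
        have := h.ne
        have := hδ.ne'
        simp only [id]
        field_simp
      rw [h3, abs_neg, abs_mul, abs_of_pos k0]
      exact (mul_le_mul_of_nonneg_left (hb _) k0.le).trans_eq (div_mul_cancel₀ _ hL.ne')
    · rw [(hp t h).deriv_eq, deriv_const, mul_zero, abs_zero]
      exact hκ.le

/-- a monotone interpolation between `t` and `δ (t - T)` -/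
theorem exists_stretch {ε s : ℝ} (hε : 0 < ε) (hs : ε ≤ s) (T T' : ℝ) : ∃ δ₁, 0 < δ₁ ∧
    ∀ δ ∈ Ioc 0 δ₁, ∃ f : ℝ → ℝ, ContDiff ℝ ∞ f ∧ (∀ t ≤ -ε, f t = t) ∧
      (∀ t, -(ε / 2) ≤ t → f t = δ * (t - T)) ∧ (∀ t, 0 < deriv f t) ∧
      ∀ t ∈ Icc (-s) T', |f t| ≤ s := by
  have hD : 0 < |T| + |T'| + ε := by positivity
  refine ⟨ε / 2 / (|T| + |T'| + ε), by positivity, fun δ hδ => ?_⟩
  have hb : δ * (|T| + |T'| + ε) ≤ ε / 2 := (le_div_iff₀ hD).1 hδ.2
  have hT := mul_le_mul_of_nonneg_left (le_abs_self T) hδ.1.le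
  have hT2 := mul_le_mul_of_nonneg_left (neg_abs_le T) hδ.1.le
  have hT' := mul_nonneg hδ.1.le (abs_nonneg T')
  have hT0 := mul_nonneg hδ.1.le (abs_nonneg T)
  have hε' := mul_pos hδ.1 hε
  let ψ : ℝ → ℝ := fun t => smoothTransition ((t + ε) / (ε / 2))
  let f : ℝ → ℝ := fun t => t + ψ t * (δ * (t - T) - t)
  have f1 : ∀ t ≤ -ε, f t = t := fun t ht => by
    simp only [f, ψ]
    rw [smoothTransition.zero_of_nonpos
      (div_nonpos_of_nonpos_of_nonneg (by linarith) (half_pos hε).le), zero_mul, add_zero]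
  have f2 : ∀ t, -(ε / 2) ≤ t → f t = δ * (t - T) := fun t ht => by
    simp only [f, ψ]
    rw [smoothTransition.one_of_one_le ((one_le_div (half_pos hε)).2 (by linarith))]
    ring
  have fc : ContDiff ℝ ∞ f := contDiff_id.add ((smoothTransition.contDiff.comp
    ((contDiff_id.add contDiff_const).div_const _)).mul
    ((contDiff_const.mul (contDiff_id.sub contDiff_const)).sub contDiff_id))
  have fd : ∀ t, 0 < deriv f t := fun t => by
    have h1 : HasDerivAt ψ _ t := (st_diff _).comp t (((hasDerivAt_id t).add_const ε).div_const _)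
    have h2 : HasDerivAt f _ t := (hasDerivAt_id t).add (h1.mul
      ((((hasDerivAt_id t).sub_const T).const_mul δ).sub (hasDerivAt_id t)))
    rw [h2.deriv]
    have p0 : 0 ≤ ψ t := smoothTransition.nonneg _
    have p1 : ψ t ≤ 1 := smoothTransition.le_one _
    have p2 : 0 < 1 + ψ t * (δ * 1 - 1) := by
      rcases p0.eq_or_lt with h | h
      · rw [← h]; norm_num
      · nlinarith [mul_pos h hδ.1]
    have p3 : 0 ≤ deriv smoothTransition ((id t + ε) / (ε / 2)) * (1 / (ε / 2))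
        * (δ * (t - T) - t) := by
      by_cases h : (id t + ε) / (ε / 2) ∈ Icc (0 : ℝ) 1
      · have a1 := (div_le_one (half_pos hε)).1 h.2
        have a2 := (div_nonneg_iff.1 h.1).elim (fun a => a.1) fun a => absurd a.2 (by linarith)
        simp only [id] at a1 a2
        refine mul_nonneg (mul_nonneg smoothTransition.monotone.deriv_nonneg (by positivity)) ?_
        nlinarith [mul_nonneg hδ.1.le a2]
      · rw [st_deriv_zero h, zero_mul, zero_mul]
    simp only [id] at p3 ⊢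
    linarith
  refine ⟨f, fc, f1, f2, fd, fun t ht => ?_⟩
  have hm : Monotone f := (strictMono_of_deriv_pos fd).monotone
  have a1 := hm ht.1
  have a2 := hm (ht.2.trans (le_abs_self T'))
  rw [f1 _ (by linarith)] at a1
  rw [f2 |T'| (by linarith [abs_nonneg T'])] at a2
  refine abs_le.2 ⟨a1, a2.trans ?_⟩
  nlinarith

end Crest.Agent.X212.Sym24
end

-- ▼ part X212/Sym24/NF

/-!
# X212 / Sym24, part 4 (helper24): normal form on the cylinder

`OO o = dt ∧ o`; `nf_cyl` : a finite family `pu (B q) - d (la q)` of pairwise positive two-forms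
is brought into the form `pu (B q) + d (δ (t - T) α q)` on `t ≥ -ε'`.
-/

set_option autoImplicit false
set_option linter.unusedSectionVars false

open Set Filter Topology Function Module
open scoped ContDiff Manifold
open Crest.Agent.R208 Crest.Agent.R208.F Crest.Agent.R208.FI
open Crest.Agent.X212.Dr59 Crest.Agent.X212.Int54 Crest.Agent.X212.Orx52

noncomputable section

namespace Crest.Agent.X212.Sym24

variable {E : Type*} [NormedAddCommGroup E] [NormedSpace ℝ E] [FiniteDimensional ℝ E]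
  {H : Type*} [TopologicalSpace H] {I : ModelWithCorners ℝ E H}
  {M : Type*} [TopologicalSpace M] [ChartedSpace H M]

/-- the orientation `dt ∧ o` of `M × ℝ` -/
def OO (o : M → Ext E) : M × ℝ → Ext (E × ℝ) := dt E M * pu o

/-- a function of `t` -/
def ft (M : Type*) (g : ℝ → ℝ) (p : M × ℝ) : ℝ := g p.2

theorem tp_OO (o : M → Ext E) (p : M × ℝ) : tp (E × ℝ) (OO o p) = kap E * tp E (o p.1) :=
  tp_dT_up _

theorem rat_OO (o : M → Ext E) (c : M × ℝ → Ext (E × ℝ)) (p : M × ℝ) :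
    rat (OO o) c p = tp E (nc (c p)) / tp E (o p.1) := by
  rw [rat, tp_OO, tp_eq, mul_div_mul_left _ _ kap_ne]

theorem OO_neg (o : M → Ext E) : OO (-o) = -OO o := by
  funext p
  simp [OO, pu]

theorem nc_mul2 {a : Ext (E × ℝ)} (h : IsDeg 2 a) (b : Ext (E × ℝ)) :
    nc (a * b) = nc a * dn b + nc b * dn a := by
  rw [nc_mul, inv2 (isDeg_dn h), comm2 (isDeg_dn h)]

theorem conv_pos {l a b : ℝ} (hl : l ∈ Icc (0 : ℝ) 1) (ha : 0 < a) (hb : 0 < b) :
    0 < (1 - l) * a + l * b := by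
  rcases hl.1.eq_or_lt with h | h
  · rwa [← h, sub_zero, one_mul, zero_mul, add_zero]
  · exact add_pos_of_nonneg_of_pos (mul_nonneg (sub_nonneg.2 hl.2) ha.le) (mul_pos h hb)

theorem dT_mul_dT {a : Ext (E × ℝ)} (h : IsDeg 1 a) (b : Ext (E × ℝ)) :
    dT E * a * (dT E * b) = 0 := by
  rw [mul_assoc, ← mul_assoc a, anti1 h isDeg_dT, neg_mul, mul_neg, mul_assoc, dT_dT, neg_zero]

variable [I.Boundaryless] [IsManifold I ∞ M]

theorem ori_OO {o : M → Ext E} (ho : Ori I o) : Ori (IR I) (OO o) :=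
  ⟨fun p => (smAt_dt p).mul (smAt_pu (ho.sm _)),
    fun p => by rw [tp_OO]; exact mul_ne_zero kap_ne (ho.ne _)⟩

theorem contMDiff_ft {g : ℝ → ℝ} (hg : ContDiff ℝ ∞ g) : ContMDiff (IR I) 𝓘(ℝ, ℝ) ∞ (ft M g) :=
  hg.contMDiff.comp contMDiff_snd

theorem smAt_ft {g : ℝ → ℝ} (hg : ContDiff ℝ ∞ g) {a : M × ℝ → Ext (E × ℝ)} {p : M × ℝ}
    (ha : SmAt (IR I) a p) : SmAt (IR I) (ft M g • a) p := ha.fsmul le_rfl (contMDiff_ft hg p)

theorem dM_ft {g : ℝ → ℝ} (hg : ContDiff ℝ ∞ g) {a : M × ℝ → Ext (E × ℝ)} {p : M × ℝ}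
    (ha : SmAt (IR I) a p) :
    dM (IR I) (ft M g • a) p = deriv g p.2 • (dT E * a p) + g p.2 • dM (IR I) a p := by
  rw [dM_fsmul ne0 ((contMDiff_ft hg p).mdifferentiableAt ne0) ha, ← smul_mul_assoc,
    ← df_comp_snd (I := I) (hg.differentiable ne0 p.2).hasDerivAt]
  rfl

theorem smooth_rat {o a : M → Ext E} {x : M} (ho : SmAt I o x) (h0 : tp E (o x) ≠ 0)
    (ha : SmAt I a x) : ContMDiffAt I 𝓘(ℝ, ℝ) ∞ (rat o a) x := by
  borelize E M
  exact contMDiffAt_rat le_rfl ho h0 ha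

/-- a smooth function vanishing on the slice `t = 0` is `O(t)` -/
theorem loc_lip {u : M × ℝ → ℝ} {y : M} (hu : ContMDiffAt (IR I) 𝓘(ℝ, ℝ) ∞ u (y, 0))
    (h0 : ∀ x, u (x, 0) = 0) : ∃ C, 0 ≤ C ∧ ∀ᶠ p in 𝓝 (y, (0 : ℝ)), |u p| ≤ C * |p.2| := by
  have h1 : ContDiffAt ℝ 1 (u ∘ Ψ I y) (extChartAt I y y, 0) := by
    refine ContMDiffAt.contDiffAt (ContMDiffAt.of_le (n := ∞)
      (ContMDiffAt.comp _ ?_ (contMDiffAt_Ψ (mem_extChartAt_target y))) (by simp))
    rwa [Ψ, extChartAt_to_inv]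
  obtain ⟨K, S, hS, hK⟩ := h1.exists_lipschitzOnWith
  have c := continuousAt_extChartAt (I := I) y
  have c1 : ContinuousAt (fun p : M × ℝ => (extChartAt I y p.1, p.2)) (y, 0) :=
    (c.comp continuousAt_fst).prodMk continuousAt_snd
  have c2 : ContinuousAt (fun p : M × ℝ => (extChartAt I y p.1, (0 : ℝ))) (y, 0) :=
    (c.comp continuousAt_fst).prodMk continuousAt_const
  refine ⟨K, K.2, ?_⟩
  filter_upwards [c1.eventually hS, c2.eventually hS,
    continuousAt_fst.eventually (extChartAt_source_mem_nhds (I := I) y)] with p h2 h3 h4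
  have h := hK.dist_le_mul _ h2 _ h3
  simp only [comp_apply, Ψ, (extChartAt I y).left_inv h4, h0, Prod.dist_eq, dist_self,
    dist_zero_right, Real.norm_eq_abs, max_eq_right (abs_nonneg p.2)] at h
  exact h

theorem ev_pos [CompactSpace M] {o : M → Ext E} (ho : Ori I o)
    {A D F A' D' F' : M × ℝ → Ext (E × ℝ)} (hA : Sm (IR I) univ A) (hD : Sm (IR I) univ D)
    (hF : Sm (IR I) univ F) (hA' : Sm (IR I) univ A') (hD' : Sm (IR I) univ D')
    (hF' : Sm (IR I) univ F') (h0 : ∀ y, F (y, 0) = 0) (h0' : ∀ y, F' (y, 0) = 0)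
    (hFF : ∀ p, F p * F' p = 0)
    (hp : ∀ y, ∀ l ∈ Icc (0 : ℝ) 1, 0 < rat (OO o) ((A + l • D) * (A' + l • D')) (y, 0)) :
    ∀ᶠ z : ℝ × ℝ in 𝓝 (0, 0), ∀ y, ∀ l ∈ Icc (0 : ℝ) 1, ∀ k : ℝ, |z.2 * k| ≤ z.1 →
      0 < rat (OO o) ((A + l • D + k • F) * (A' + l • D' + k • F')) (y, z.2) := by
  have hO := ori_OO ho
  have sm : ∀ {a : M × ℝ → Ext (E × ℝ)}, Sm (IR I) univ a → ∀ p,
      ContMDiffAt (IR I) 𝓘(ℝ, ℝ) ∞ (rat (OO o) a) p := fun ha p =>
    smooth_rat (hO.sm p) (hO.ne p) (ha p trivial)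
  set g0 := rat (OO o) (A * A')
  set g1 := rat (OO o) (A * D' + D * A')
  set g2 := rat (OO o) (D * D')
  set u := rat (OO o) (A * F' + F * A')
  set v := rat (OO o) (D * F' + F * D')
  have e : ∀ (l k : ℝ) p, rat (OO o) ((A + l • D + k • F) * (A' + l • D' + k • F')) p =
      g0 p + l * g1 p + l ^ 2 * g2 p + k * (u p + l * v p) := fun l k p => by
    simp only [g0, g1, g2, u, v, rat, Pi.mul_apply, Pi.add_apply, Pi.smul_apply, add_mul, mul_add,
      smul_mul_assoc, mul_smul_comm, hFF, map_add, map_smul, smul_eq_mul, smul_add, smul_zero,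
      map_zero]
    ring
  have := (isCompact_univ.prod (isCompact_Icc (a := (0 : ℝ)) (b := 1))
    ).eventually_forall_of_forall_eventually (x₀ := ((0, 0) : ℝ × ℝ))
    (P := fun z (w : M × ℝ) => ∀ k : ℝ, |z.2 * k| ≤ z.1 → 0 < g0 (w.1, z.2) + w.2 * g1 (w.1, z.2)
      + w.2 ^ 2 * g2 (w.1, z.2) + k * (u (w.1, z.2) + w.2 * v (w.1, z.2))) ?_
  · filter_upwards [this] with z hz y l hl k hk
    rw [e]
    exact hz (y, l) ⟨trivial, hl⟩ k hk
  rintro ⟨y, l⟩ ⟨-, hl⟩
  obtain ⟨C, hC, h1⟩ := loc_lip (sm ((hA.mul hF').add (hF.mul hA')) (y, 0)) fun x =>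
    by simp [rat, h0, h0']
  obtain ⟨C', hC', h2⟩ := loc_lip (sm ((hD.mul hF').add (hF.mul hD')) (y, 0)) fun x =>
    by simp [rat, h0, h0']
  let π : (ℝ × ℝ) × M × ℝ → M × ℝ := fun x => (x.2.1, x.1.2)
  have hπ : ContinuousAt π ((0, 0), y, l) := by fun_prop
  have c0 := ((sm (hA.mul hA') (y, 0)).continuousAt).comp_of_eq hπ rfl
  have c1 := ((sm ((hA.mul hD').add (hD.mul hA')) (y, 0)).continuousAt).comp_of_eq hπ rfl
  have c2 := ((sm (hD.mul hD') (y, 0)).continuousAt).comp_of_eq hπ rfl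
  have c : ContinuousAt (fun x : (ℝ × ℝ) × M × ℝ => g0 (π x) + x.2.2 * g1 (π x)
      + x.2.2 ^ 2 * g2 (π x) - x.1.1 * (C + |x.2.2| * C')) ((0, 0), y, l) :=
    ((c0.add (continuousAt_snd.snd.mul c1)).add ((continuousAt_snd.snd.pow 2).mul c2)).sub
      (by fun_prop)
  have hpos : 0 < g0 (y, 0) + l * g1 (y, 0) + l ^ 2 * g2 (y, 0) - 0 * (C + |l| * C') := by
    have h := hp y l hl
    have h' := e l 0 (y, 0)
    rw [zero_smul, zero_smul, add_zero, add_zero] at h'
    linarith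
  filter_upwards [c.eventually (lt_mem_nhds hpos), hπ.eventually h1, hπ.eventually h2]
    with x a1 a2 a3 k hk
  have b1 : |k * (u (π x) + x.2.2 * v (π x))| ≤ x.1.1 * (C + |x.2.2| * C') := by
    have b2 : |u (π x) + x.2.2 * v (π x)| ≤ |x.1.2| * (C + |x.2.2| * C') := by
      refine (abs_add_le _ _).trans ?_
      rw [abs_mul]
      have := mul_le_mul_of_nonneg_left a3 (abs_nonneg x.2.2)
      simp only [π] at a2 this ⊢
      linarith
    rw [abs_mul] at hk ⊢
    refine (mul_le_mul_of_nonneg_left b2 (abs_nonneg k)).trans ?_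
    rw [← mul_assoc, mul_comm |k|]
    exact mul_le_mul_of_nonneg_right hk (by positivity)
  have := neg_abs_le (k * (u (π x) + x.2.2 * v (π x)))
  simp only [π] at a1 b1 this ⊢
  linarith

theorem ev_lin [CompactSpace M] {a b : M → ℝ} (ha : Continuous a) (hb : Continuous b)
    (h : ∀ y, 0 < a y) : ∀ᶠ s : ℝ in 𝓝 0, ∀ y, 0 < a y + s * b y := by
  have := (isCompact_univ (X := M)).eventually_forall_of_forall_eventually (x₀ := (0 : ℝ))
    (P := fun s y => 0 < a y + s * b y) fun y _ => by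
      have c : ContinuousAt (fun z : ℝ × M => a z.2 + z.1 * b z.2) (0, y) := by fun_prop
      exact c.eventually (lt_mem_nhds (by simpa using h y))
  exact this.mono fun s hs y => hs y trivial

/-- the normal component of a two-form along the slice `t = 0` -/
def nq (w : M × ℝ → Ext (E × ℝ)) : M → Ext E := sl 0 (nf w)

theorem nq_apply (w : M × ℝ → Ext (E × ℝ)) (y : M) : nq w y = nc (w (y, 0)) := rfl

theorem smAt_nq {w : M × ℝ → Ext (E × ℝ)} {y : M} (h : SmAt (IR I) w (y, 0)) : SmAt I (nq w) y :=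
  smAt_sl (smAt_nf h)

theorem isDeg_nq {k : ℕ} {w : M × ℝ → Ext (E × ℝ)} {y : M} (h : IsDeg (k + 1) (w (y, 0))) :
    IsDeg k (nq w y) := isDeg_nc h

/-- positivity of a product of two-forms along the slice -/
theorem rat_nq (o : M → Ext E) {w : M × ℝ → Ext (E × ℝ)} {y : M} (h : IsDeg 2 (w (y, 0)))
    (w' : M × ℝ → Ext (E × ℝ)) :
    rat (OO o) (w * w') (y, 0) = rat o (nq w * sl 0 w' + nq w' * sl 0 w) y := by
  rw [rat_OO, Pi.mul_apply, nc_mul2 h]
  rfl

theorem dn_dM_zero {la : M × ℝ → Ext (E × ℝ)} {y : M} (h : SmAt (IR I) la (y, 0))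
    (h0 : sl 0 la = 0) : dn (dM (IR I) la (y, 0)) = 0 := by
  have := dM_sl h
  rw [h0, dM_zero] at this
  exact this.symm

/-- **normal form on the cylinder** -/
theorem nf_cyl [CompactSpace M] {ι : Type*} [Finite ι] {o : M → Ext E} (ho : Ori I o)
    {B α : ι → M → Ext E} {la : ι → M × ℝ → Ext (E × ℝ)}
    (hB : ∀ q, Sm I univ (B q)) (hB' : ∀ q, Dg 2 univ (B q))
    (hα : ∀ q, Sm I univ (α q)) (hα' : ∀ q, Dg 1 univ (α q))
    (hl : ∀ q, Sm (IR I) univ (la q)) (hl' : ∀ q, Dg 1 univ (la q)) (h0 : ∀ q, sl 0 (la q) = 0)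
    (hp : ∀ q r y, 0 < rat (OO o)
      ((pu (B q) - dM (IR I) (la q)) * (pu (B r) - dM (IR I) (la r))) (y, 0))
    (ha : ∀ q r y, 0 < rat o (α q * B r + α r * B q) y) {ε : ℝ} (hε : 0 < ε) (T T' : ℝ) :
    ∃ s ε' δ₁ : ℝ, 0 < ε' ∧ ε' < s ∧ s < ε ∧ 0 < δ₁ ∧ ∀ δ ∈ Ioc 0 δ₁,
      ∃ μ : ι → M × ℝ → Ext (E × ℝ), (∀ q, Sm (IR I) univ (μ q)) ∧ (∀ q, Dg 1 univ (μ q)) ∧
        (∀ q p, p.2 ≤ -s → μ q p = 0) ∧
        (∀ q p, -ε' ≤ p.2 → (la q - μ q) p = -((δ * (p.2 - T)) • pu (α q) p)) ∧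
        ∀ q r p, p.2 ∈ Icc (-s) T' → 0 < rat (OO o) ((pu (B q) - dM (IR I) (la q - μ q)) *
          (pu (B r) - dM (IR I) (la r - μ r))) p := by
  have sα : ∀ q, Sm (IR I) univ (pu (α q)) := fun q p _ => smAt_pu (hα q _ trivial)
  have dα : ∀ q, Dg 1 univ (pu (α q) : M × ℝ → _) := fun q p _ => isDeg_up (hα' q _ trivial)
  have sB : ∀ q, Sm (IR I) univ (pu (B q)) := fun q p _ => smAt_pu (hB q _ trivial)
  have dB : ∀ q, Dg 2 univ (pu (B q) : M × ℝ → _) := fun q p _ => isDeg_up (hB' q _ trivial)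
  let θ : ι → M × ℝ → Ext (E × ℝ) := fun q => ft M id • pu (α q) + la q
  have sθ : ∀ q, Sm (IR I) univ (θ q) := fun q p _ =>
    (smAt_ft contDiff_id (sα q p trivial)).add (hl q p trivial)
  have dθ : ∀ q, Dg 1 univ (θ q) := fun q => ((dα q).fsmul _).add (hl' q)
  let W : ι → M × ℝ → Ext (E × ℝ) := fun q => pu (B q) - dM (IR I) (la q)
  have sW : ∀ q, Sm (IR I) univ (W q) := fun q => (sB q).sub (hl q).dM
  have dW : ∀ q, Dg 2 univ (W q) := fun q => (dB q).sub ((hl' q).dM isOpen_univ)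
  have eθ : ∀ q y, dM (IR I) (θ q) (y, 0) = dT E * up (α q y) + dM (IR I) (la q) (y, 0) :=
    fun q y => by
      rw [dM_add ne0 (smAt_ft contDiff_id (sα q _ trivial)) (hl q _ trivial),
        dM_ft contDiff_id (sα q _ trivial), deriv_id, one_smul, id, zero_smul, add_zero]
      rfl
  have e1 : ∀ q y (l : ℝ), dn ((W q + l • dM (IR I) (θ q)) (y, 0)) = B q y := fun q y l => by
    simp [W, eθ, pu, dn_dM_zero (hl q _ trivial) (h0 q)]
  have e2 : ∀ q y (l : ℝ), nc ((W q + l • dM (IR I) (θ q)) (y, 0)) =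
      (1 - l) • nc (W q (y, 0)) + l • α q y := fun q y l => by
    simp only [W, eθ, pu, Pi.add_apply, Pi.sub_apply, Pi.smul_apply, map_add, map_sub, map_smul,
      nc_up, nc_dT_mul, dn_up]
    module
  have E1 : ∀ᶠ z : ℝ × ℝ in 𝓝 (0, 0), ∀ q r, ∀ y, ∀ l ∈ Icc (0 : ℝ) 1, ∀ k : ℝ, |z.2 * k| ≤ z.1 →
      0 < rat (OO o) ((W q + l • dM (IR I) (θ q) + k • (dt E M * θ q)) *
        (W r + l • dM (IR I) (θ r) + k • (dt E M * θ r))) (y, z.2) := by
    have z0 : ∀ q y, (dt E M * θ q) (y, 0) = 0 := fun q y => by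
      have := congrFun (h0 q) y
      rw [sl] at this
      rw [Pi.mul_apply, dt, dT_mul_eq]
      simp [θ, ft, this]
    refine eventually_all.2 fun q => eventually_all.2 fun r => ev_pos ho (sW q) (sθ q).dM
      (fun p _ => (smAt_dt p).mul (sθ q p trivial)) (sW r) (sθ r).dM
      (fun p _ => (smAt_dt p).mul (sθ r p trivial)) (z0 q) (z0 r)
      (fun p => dT_mul_dT (dθ q p trivial) _) fun y l hl => ?_
    have h1 : 0 < rat (OO o) (W q * W r) (y, 0) := hp q r y
    have h2 := ha q r y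
    have d0 := e1 q y 0
    have d1 := e1 r y 0
    rw [zero_smul, add_zero] at d0 d1
    rw [rat_OO, Pi.mul_apply, nc_mul2 (dW q _ trivial), d0, d1] at h1
    rw [rat_OO, Pi.mul_apply,
      nc_mul2 (((dW q).add (((dθ q).dM isOpen_univ).smul l)) _ trivial), e1, e1, e2, e2]
    simp only [rat, Pi.add_apply, Pi.mul_apply, add_mul, smul_mul_assoc, map_add, map_smul,
      smul_eq_mul] at h1 h2 ⊢
    refine (conv_pos hl h1 h2).trans_eq ?_
    ring
  have E2 : ∀ᶠ s : ℝ in 𝓝 0, ∀ q r y, 0 < rat o (α q * B r + α r * B q) y +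
      s * rat o (α q * dM I (α r) + α r * dM I (α q)) y := by
    have c : ∀ {a : M → Ext E}, Sm I univ a → Continuous (rat o a) := fun h =>
      continuous_iff_continuousAt.2 fun x => contAt_rat (ho.sm x) (ho.ne x) (h x trivial)
    exact eventually_all.2 fun q => eventually_all.2 fun r => ev_lin
      (c (((hα q).mul (hB r)).add ((hα r).mul (hB q))))
      (c (((hα q).mul (hα r).dM).add ((hα r).mul (hα q).dM))) (ha q r)
  obtain ⟨r1, r1p, E1⟩ := Metric.eventually_nhds_iff.1 E1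
  obtain ⟨r2, r2p, E2⟩ := Metric.eventually_nhds_iff.1 E2
  set s := min (min r1 r2) ε / 2 with hs
  have s0 : 0 < min (min r1 r2) ε := lt_min (lt_min r1p r2p) hε
  have s1 : s < r1 := (half_lt_self s0).trans_le ((min_le_left _ _).trans (min_le_left _ _))
  have s2 : s < r2 := (half_lt_self s0).trans_le ((min_le_left _ _).trans (min_le_right _ _))
  have s3 : s < ε := (half_lt_self s0).trans_le (min_le_right _ _)
  have sp : 0 < s := half_pos s0
  obtain ⟨χ, e, cχ, ep, es, χ1, χ2, χ3, χ4⟩ := exists_log sp sp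
  obtain ⟨δ₁, δp, hf⟩ := exists_stretch (half_pos ep) (by linarith : e / 2 ≤ s) T T'
  refine ⟨s, e / 2 / 2, δ₁, by positivity, by linarith, s3, δp, fun δ hδ => ?_⟩
  obtain ⟨f, cf, f1, f2, f3, f4⟩ := hf δ hδ
  have cg : ContDiff ℝ ∞ (f - id) := cf.sub contDiff_id
  let μ : ι → M × ℝ → Ext (E × ℝ) := fun q => ft M χ • θ q + ft M (f - id) • pu (α q)
  have sμ : ∀ q, Sm (IR I) univ (μ q) := fun q p _ =>
    (smAt_ft cχ (sθ q p trivial)).add (smAt_ft cg (sα q p trivial))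
  have m1 : ∀ q p, -e ≤ p.2 → (la q - μ q) p = (-(ft M f • pu (α q))) p := fun q p h => by
    simp only [μ, θ, ft, Pi.add_apply, Pi.sub_apply, Pi.neg_apply, Pi.smul_apply', χ3 _ h, id]
    module
  refine ⟨μ, sμ, fun q => ((dθ q).fsmul _).add ((dα q).fsmul _), fun q p h => ?_,
    fun q p h => ?_, fun q r p h => ?_⟩
  · simp [μ, ft, χ2 _ h, f1 p.2 (by linarith)]
  · rw [m1 q p (by linarith)]
    simp [ft, f2 _ h]
  rcases lt_or_ge p.2 (-(e / 2)) with h1 | h1
  · have m2 : ∀ q, (pu (B q) - dM (IR I) (la q - μ q)) p = (W q + χ p.2 • dM (IR I) (θ q) +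
        deriv χ p.2 • (dt E M * θ q)) p := fun q => by
      have : μ q =ᶠ[𝓝 p] ft M χ • θ q := by
        filter_upwards [continuousAt_snd.eventually (Iio_mem_nhds h1)] with x hx
        simp [μ, ft, f1 x.2 (le_of_lt hx)]
      rw [Pi.sub_apply, dM_sub ne0 (hl q p trivial) (sμ q p trivial), dM_congr this,
        dM_ft cχ (sθ q p trivial)]
      simp only [W, dt, Pi.add_apply, Pi.sub_apply, Pi.smul_apply, Pi.mul_apply]
      abel
    have := @E1 (s, p.2) (by
      rw [Prod.dist_eq, max_lt_iff, dist_zero_right, dist_zero_right, Real.norm_eq_abs,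
        Real.norm_eq_abs, abs_of_pos sp, abs_lt]
      exact ⟨s1, by linarith [h.1], by linarith⟩) q r p.1 _ (χ1 p.2) _ (χ4 p.2)
    rwa [rat, Pi.mul_apply, ← m2, ← m2] at this
  · have m3 : ∀ q, (pu (B q) - dM (IR I) (la q - μ q)) p = up (B q p.1 + f p.2 • dM I (α q) p.1) +
        deriv f p.2 • (dT E * up (α q p.1)) := fun q => by
      have : la q - μ q =ᶠ[𝓝 p] -(ft M f • pu (α q)) := by
        filter_upwards [continuousAt_snd.eventually
          (Ioi_mem_nhds (show -e < p.2 by linarith))] with x hx using m1 q x (le_of_lt hx)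
      rw [Pi.sub_apply, dM_congr this, dM_neg, Pi.neg_apply, dM_ft cf (sα q p trivial),
        dM_pu (hα q _ trivial)]
      simp only [pu, map_add, map_smul]
      abel
    have d2 : IsDeg 2 ((pu (B q) - dM (IR I) (la q - μ q)) p) := ((dB q).sub (((hl' q).sub
      (((dθ q).fsmul _).add ((dα q).fsmul _))).dM isOpen_univ)) p trivial
    have := mul_pos (f3 p.2) (@E2 (f p.2) (by
      rw [dist_zero_right, Real.norm_eq_abs]
      exact (f4 _ h).trans_lt s2) q r p.1)
    rw [rat_OO, Pi.mul_apply, nc_mul2 d2, m3, m3]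
    refine this.trans_eq ?_
    simp only [rat, Pi.add_apply, Pi.mul_apply, map_add, map_smul, map_mul, nc_up, nc_dT_mul, dn_up,
      dn_dT, zero_mul, smul_zero, add_zero, zero_add, mul_add, smul_mul_assoc, mul_smul_comm,
      smul_eq_mul]
    ring

end Crest.Agent.X212.Sym24
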